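import Mathlib

/-!
Helper for P043: an aperiodic translational tile in every dimension `d ≥ 3`; the shapes.
See notes/P043/R3/PROOF.md. Space is `ℝ × (Fin n → ℝ)`, the second factor carrying the rows.
-/

namespace Vale.Agent.P043.R3

open MeasureTheory

variable {n : ℕ}

/-- Side of a notch. -/
noncomputable def eta (n : ℕ) : ℝ := 1 / (20 * (n + 1))

/-- The notch in the face `y c = 0` of the unit cube. -/
def notch (c : Fin n) : Set (Fin n → ℝ) :=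
  {y | (y c ∈ Set.Ico 0 (eta n)) ∧ ∀ k, k ≠ c → y k ∈ Set.Ico (1 / 2) (1 / 2 + eta n)}

/-- The notches moved to the opposite faces. -/
def bumps (n : ℕ) : Set (Fin n → ℝ) := {y | ∃ c, y - Pi.single c 1 ∈ notch c}

/-- The half-open unit cube. -/
def cube (n : ℕ) : Set (Fin n → ℝ) := {y | ∀ k, y k ∈ Set.Ico 0 1}

/-- The unit cube with every notch moved by the unit vector of its face. -/
def piece (n : ℕ) : Set (Fin n → ℝ) := (cube n \ ⋃ c, notch c) ∪ bumps n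

/-- A unit interval, bent by a quadratic, over the notched cube. -/
def prism (n : ℕ) : Set (ℝ × (Fin n → ℝ)) :=
  {z | z.2 ∈ piece n ∧ z.1 - ∑ k, z.2 k ^ 2 ∈ Set.Ico 0 1}

/-- A point with integral rows, in space. -/
def pt (p : ℝ × (Fin n → ℤ)) : ℝ × (Fin n → ℝ) := (p.1, fun k => (p.2 k : ℝ))

/-- The union of the prisms at the points of `F`. -/
def body (F : Finset (ℝ × (Fin n → ℤ))) : Set (ℝ × (Fin n → ℝ)) :=
  {z | ∃ p ∈ F, z - pt p ∈ prism n}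

/-- Translates of `Ω` by `A` tile up to null sets. -/
def Tiling (Ω A : Set (ℝ × (Fin n → ℝ))) : Prop :=
  (∀ᵐ z, ∃ a ∈ A, z - a ∈ Ω) ∧
    ∀ a ∈ A, ∀ b ∈ A, a ≠ b → volume ({z | z - a ∈ Ω} ∩ {z | z - b ∈ Ω}) = 0

/-- In every row the translated points run exactly once through a coset of `ℤ`. -/
def Sys (F : Finset (ℝ × (Fin n → ℤ))) (A : Set (ℝ × (Fin n → ℤ))) : Prop :=
  ∀ r : Fin n → ℤ, ∃ ψ : ℝ,
    (∀ a ∈ A, ∀ p ∈ F, a.2 + p.2 = r → ∃ z : ℤ, a.1 + p.1 = ψ + z) ∧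
    ∀ z : ℤ, ∃! q : (ℝ × (Fin n → ℤ)) × (ℝ × (Fin n → ℤ)),
      q.1 ∈ A ∧ q.2 ∈ F ∧ q.1.2 + q.2.2 = r ∧ q.1.1 + q.2.1 = ψ + z

/-- A point of the plane as a row. -/
def lift2 (n : ℕ) (r : ℤ × ℤ) : Fin n → ℤ :=
  fun k => if k.val = 0 then r.1 else if k.val = 1 then r.2 else 0

/-- The map `(i, j) ↦ b i + a j`, coordinatewise. -/
def mix (a b i j : ℤ × ℤ) : ℤ × ℤ := (b.1 * i.1 + a.1 * j.1, b.2 * i.2 + a.2 * j.2)

/-- The prism positions of a product of two factors with colours. -/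
noncomputable def spots (n : ℕ) (a b : ℤ × ℤ) (S₁ S₂ : Finset (ℤ × ℤ)) (c₁ c₂ : ℤ × ℤ → ℤ) :
    Finset (ℝ × (Fin n → ℤ)) :=
  (S₁ ×ˢ S₂).image fun f =>
    (Real.sqrt 2 * f.1.1 + ((c₁ f.1 + c₂ f.2 : ℤ) : ℝ), lift2 n (mix a b f.1 f.2))

/-- `R` tiles the plane periodically. -/
def PlaneTile (R : Finset (ℤ × ℤ)) : Prop :=
  ∃ (N : ℕ) (T : Finset (ℤ × ℤ)), 0 < N ∧ ∀ z : ℤ × ℤ, ∃! q : (ℤ × ℤ) × (ℤ × ℤ),
    q.1 ∈ R ∧ q.2 ∈ T ∧ (N : ℤ) ∣ z.1 - q.1.1 - q.2.1 ∧ (N : ℤ) ∣ z.2 - q.1.2 - q.2.2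

/-- Every functional that is non-constant in the first coordinate has a unique maximiser or a
unique minimiser on `R`. -/
def HasExtreme (R : Finset (ℤ × ℤ)) : Prop :=
  ∀ u w : ℚ, u ≠ 0 → ∃ f ∈ R, (∀ g ∈ R, g ≠ f → u * g.1 + w * g.2 < u * f.1 + w * f.2) ∨
    ∀ g ∈ R, g ≠ f → u * f.1 + w * f.2 < u * g.1 + w * g.2

/-- The first factor: 63 points, moduli `(63, 21)`. -/
def R1 : Finset (ℤ × ℤ) :=
  (Finset.range 3 ×ˢ Finset.range 7).image (fun p : ℕ × ℕ => (21 * (p.1 : ℤ), 3 * (p.2 : ℤ))) ∪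
    ((Finset.range 3 ×ˢ Finset.range 7).image
        (fun p : ℕ × ℕ => (28 * (p.1 : ℤ) + 9 * (p.2 : ℤ) + 63, (7 : ℤ))) ∪
      (Finset.range 3 ×ˢ Finset.range 7).image
        (fun p : ℕ × ℕ => (28 * (p.1 : ℤ) + 9 * (p.2 : ℤ), (14 : ℤ))))

/-- The second factor: 20 points, moduli `(20, 10)`. -/
def R2 : Finset (ℤ × ℤ) :=
  (Finset.range 2 ×ˢ Finset.range 5).image (fun p : ℕ × ℕ => (10 * (p.1 : ℤ), 2 * (p.2 : ℤ))) ∪
    (Finset.range 2 ×ˢ Finset.range 5).image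
      (fun p : ℕ × ℕ => (5 * (p.1 : ℤ) + 4 * (p.2 : ℤ), (5 : ℤ)))

/-- Colours of the first factor. -/
def v1 (i : ℤ × ℤ) : ℤ := if i.2 % 3 = 0 then i.1 / 21 else 0

/-- Colours of the second factor. -/
def v2 (i : ℤ × ℤ) : ℤ := if i.2 % 2 = 0 then i.1 / 10 else 0

/-- The prism positions of the aperiodic tile. -/
noncomputable def tileF (n : ℕ) : Finset (ℝ × (Fin n → ℤ)) :=
  spots n (63, 21) (20, 10) R1 R2 v1 v2

end Vale.Agent.P043.R3
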