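import Vale.Agent.P043.R3.Exists.Side

/-!
Helper for P043: the aperiodic tile tiles (section 4 of notes/P043/R3/PROOF.md).
-/

namespace Vale.Agent.P043.R3

open Boxes

set_option linter.constructorNameAsVariable false

theorem code_eq_of_mix {i j ρ : ℤ × ℤ} (h : mix (63, 21) (20, 10) i j = ρ) :
    code (63, 21) 1 i 0 = code (63, 21) 1 (41 * ρ.1, 19 * ρ.2) 0 ∧
      code (20, 10) 1 j 0 = code (20, 10) 1 (7 * ρ.1, ρ.2) 0 := by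
  have h1 : 20 * i.1 + 63 * j.1 = ρ.1 := congrArg Prod.fst h
  have h2 : 10 * i.2 + 21 * j.2 = ρ.2 := congrArg Prod.snd h
  rw [code_eq_iff (by norm_num) Nat.one_pos, code_eq_iff (by norm_num) Nat.one_pos]
  refine ⟨⟨?_, ?_, by simp⟩, ⟨?_, ?_, by simp⟩⟩ <;> push_cast <;> omega

theorem mix_cancel_left {i j j' : ℤ × ℤ}
    (h : mix (63, 21) (20, 10) i j = mix (63, 21) (20, 10) i j') : j = j' := by
  have h1 : 20 * i.1 + 63 * j.1 = 20 * i.1 + 63 * j'.1 := congrArg Prod.fst h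
  have h2 : 10 * i.2 + 21 * j.2 = 10 * i.2 + 21 * j'.2 := congrArg Prod.snd h
  exact Prod.ext (by omega) (by omega)

theorem mix_cancel_right {i i' j : ℤ × ℤ}
    (h : mix (63, 21) (20, 10) i j = mix (63, 21) (20, 10) i' j) : i = i' := by
  have h1 : 20 * i.1 + 63 * j.1 = 20 * i'.1 + 63 * j.1 := congrArg Prod.fst h
  have h2 : 10 * i.2 + 21 * j.2 = 10 * i'.2 + 21 * j.2 := congrArg Prod.snd h
  exact Prod.ext (by omega) (by omega)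

set_option maxRecDepth 8000 in
theorem code_R1_inj : (l1.map fun f => code (63, 21) 1 f 0).Nodup := by
  decide +kernel

theorem mix_injOn : Set.InjOn (fun f : (ℤ × ℤ) × (ℤ × ℤ) => mix (63, 21) (20, 10) f.1 f.2)
    (R1 ×ˢ R2 : Finset _) := by
  intro f hf g hg h
  simp only [Finset.coe_product, Set.mem_prod, Finset.mem_coe] at hf hg
  have e : f.1 = g.1 := List.inj_on_of_nodup_map code_R1_inj ((mem_l1 _).2 hf.1)
    ((mem_l1 _).2 hg.1) ((code_eq_of_mix rfl).1.trans (code_eq_of_mix h.symm).1.symm)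
  refine Prod.ext e (mix_cancel_left (i := f.1) ?_)
  simpa [e] using h

namespace Boxes

/-- Admissible triples: in box `k` one factor is exact and the other coloured. -/
def Adm (b₁ b₂ : ℤ × ℤ) (c : ℤ) : Prop :=
  ∃ k < 3, Adm1 (20, 10) 2 (e1 k) (w2 k) b₁ b₂ c ∨ Adm1 (63, 21) 3 (e2 k) (w1 k) b₂ b₁ c

theorem region {M : ℕ × ℕ} {r : ℕ} {L : List ((ℤ × ℤ) × ℤ)} {R : List (ℤ × ℤ)}
    {v : ℤ × ℤ → ℤ} {Q : ℕ → Bool} (hM : 0 < M.1 ∧ 0 < M.2) (hr : 0 < r)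
    (h : check M r L R v Q = true) {b : ℤ × ℤ} {c : ℤ} {w : (ℤ × ℤ) × ℤ} (hw : w ∈ L)
    (hb : code M r b c = code M r w.1 w.2) {f : ℤ × ℤ} (hf : f ∈ R) :
    Q (code M 1 (b + f) 0) = true := by
  have := congrArg (· / r) (code_shift hM hr hb f 0)
  simp only [code_div hr] at this
  rw [this]
  exact (check_spec hr hM h).1 w hw f hf

/-- In every row: one phase, and every colour exactly once. -/
theorem row (ρ : ℤ × ℤ) : ∃ X : ℤ,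
    (∀ b₁ b₂ c, Adm b₁ b₂ c → ∀ f₁ ∈ R1, ∀ f₂ ∈ R2,
      mix (63, 21) (20, 10) (b₁ + f₁) (b₂ + f₂) = ρ → (b₁ + f₁).1 = X) ∧
    ∀ z : ℤ, ∃ b₁ b₂ c f₁ f₂, Adm b₁ b₂ c ∧ f₁ ∈ R1 ∧ f₂ ∈ R2 ∧
      mix (63, 21) (20, 10) (b₁ + f₁) (b₂ + f₂) = ρ ∧ c + v1 f₁ + v2 f₂ = z ∧
      ∀ d₁ d₂ e g₁ g₂, Adm d₁ d₂ e → g₁ ∈ R1 → g₂ ∈ R2 →
        mix (63, 21) (20, 10) (d₁ + g₁) (d₂ + g₂) = ρ → e + v1 g₁ + v2 g₂ = z →
        d₁ = b₁ ∧ d₂ = b₂ ∧ e = c ∧ g₁ = f₁ ∧ g₂ = f₂ := by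
  set G := code (63, 21) 1 (41 * ρ.1, 19 * ρ.2) 0 with hG
  set H := code (20, 10) 1 (7 * ρ.1, ρ.2) 0 with hH
  obtain ⟨k, hk, hbox, huniq⟩ := box_unique G H
  have hin : ∀ k' < 3, ∀ b₁ b₂ c, ∀ f₁ ∈ R1, ∀ f₂ ∈ R2,
      mix (63, 21) (20, 10) (b₁ + f₁) (b₂ + f₂) = ρ →
      (Adm1 (20, 10) 2 (e1 k') (w2 k') b₁ b₂ c → (qe1 k' G && qw2 k' H) = true) ∧
      (Adm1 (63, 21) 3 (e2 k') (w1 k') b₂ b₁ c → (qw1 k' G && qe2 k' H) = true) := by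
    intro k' hk' b₁ b₂ c f₁ hf₁ f₂ hf₂ h
    obtain ⟨h1, h2⟩ := code_eq_of_mix h
    rw [Bool.and_eq_true, Bool.and_eq_true, hG, hH, ← h1, ← h2]
    constructor
    · rintro ⟨⟨e, he, rfl⟩, w, hw, hcw⟩
      exact ⟨region (by norm_num) Nat.one_pos (check_e1 k' hk') (c := e.2) he rfl ((mem_l1 _).2 hf₁),
        region (by norm_num) two_pos (check_w2 k' hk') hw hcw ((mem_l2 _).2 hf₂)⟩
    · rintro ⟨⟨e, he, rfl⟩, w, hw, hcw⟩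
      exact ⟨region (by norm_num) (by norm_num) (check_w1 k' hk') hw hcw ((mem_l1 _).2 hf₁),
        region (by norm_num) Nat.one_pos (check_e2 k' hk') (c := e.2) he rfl ((mem_l2 _).2 hf₂)⟩
  by_cases hA : (qe1 k G && qw2 k H) = true
  · have hnB : ∀ k' < 3, (qw1 k' G && qe2 k' H) = true → False := fun k' hk' h => by
      have := ((huniq k' hk').2 h).2.2
      simp [hA] at this
    rw [Bool.and_eq_true] at hA
    obtain ⟨X, Y, hX, hZ⟩ := side (ME := (63, 21)) (MW := (20, 10)) (by norm_num) (by norm_num)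
      two_pos (vE := v1) (check_e1 k hk) (check_w2 k hk) (mix (63, 21) (20, 10))
      (ρ := ρ) (gE := (41 * ρ.1, 19 * ρ.2)) (gW := (7 * ρ.1, ρ.2))
      (fun _ _ _ => mix_cancel_left) (fun x hx => by
        rw [code_eq_iff (by norm_num) Nat.one_pos] at hx
        obtain ⟨hx1, hx2, -⟩ := hx
        push_cast at hx1 hx2
        refine ⟨((ρ.1 - 20 * x.1) / 63, (ρ.2 - 10 * x.2) / 21), Prod.ext ?_ ?_⟩ <;>
          simp only [mix] <;> omega)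
      (fun _ _ => code_eq_of_mix) hA.1 hA.2
    have adm : ∀ d₁ d₂ e g₁ g₂, Adm d₁ d₂ e → g₁ ∈ R1 → g₂ ∈ R2 →
        mix (63, 21) (20, 10) (d₁ + g₁) (d₂ + g₂) = ρ →
        Adm1 (20, 10) 2 (e1 k) (w2 k) d₁ d₂ e := by
      rintro d₁ d₂ e g₁ g₂ ⟨k', hk', h | h⟩ hg₁ hg₂ hρ
      · obtain ⟨rfl, -⟩ := (huniq k' hk').1 ((hin k' hk' d₁ d₂ e g₁ hg₁ g₂ hg₂ hρ).1 h)
        exact h
      · exact (hnB k' hk' ((hin k' hk' d₁ d₂ e g₁ hg₁ g₂ hg₂ hρ).2 h)).elim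
    refine ⟨X.1, fun b₁ b₂ c hb f₁ hf₁ f₂ hf₂ hρ => congrArg Prod.fst
      (hX b₁ b₂ c (adm _ _ _ _ _ hb hf₁ hf₂ hρ) f₁ ((mem_l1 _).2 hf₁) f₂ ((mem_l2 _).2 hf₂) hρ).1,
      fun z => ?_⟩
    obtain ⟨b, b', c, f, f', h1, h2, h3, h4, h5, h6⟩ := hZ z
    exact ⟨b, b', c, f, f', ⟨k, hk, .inl h1⟩, (mem_l1 _).1 h2, (mem_l2 _).1 h3, h4, h5,
      fun d₁ d₂ e g₁ g₂ hd hg₁ hg₂ hρ hz => h6 d₁ d₂ e g₁ g₂ (adm _ _ _ _ _ hd hg₁ hg₂ hρ)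
        ((mem_l1 _).2 hg₁) ((mem_l2 _).2 hg₂) hρ hz⟩
  · rw [Bool.or_eq_true] at hbox
    have hB := hbox.resolve_left hA
    have hnA : ∀ k' < 3, (qe1 k' G && qw2 k' H) = true → False := fun k' hk' h =>
      hA ((huniq k' hk').1 h).2.1
    rw [Bool.and_eq_true] at hB
    obtain ⟨Y, X, hX, hZ⟩ := side (ME := (20, 10)) (MW := (63, 21)) (by norm_num) (by norm_num)
      (r := 3) (by norm_num) (vE := v2) (check_e2 k hk) (check_w1 k hk)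
      (fun j i => mix (63, 21) (20, 10) i j)
      (ρ := ρ) (gE := (7 * ρ.1, ρ.2)) (gW := (41 * ρ.1, 19 * ρ.2))
      (fun _ _ _ => mix_cancel_right) (fun x hx => by
        rw [code_eq_iff (by norm_num) Nat.one_pos] at hx
        obtain ⟨hx1, hx2, -⟩ := hx
        push_cast at hx1 hx2
        refine ⟨((ρ.1 - 63 * x.1) / 20, (ρ.2 - 21 * x.2) / 10), Prod.ext ?_ ?_⟩ <;>
          simp only [mix] <;> omega)
      (fun _ _ h => (code_eq_of_mix h).symm) hB.2 hB.1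
    have adm : ∀ d₁ d₂ e g₁ g₂, Adm d₁ d₂ e → g₁ ∈ R1 → g₂ ∈ R2 →
        mix (63, 21) (20, 10) (d₁ + g₁) (d₂ + g₂) = ρ →
        Adm1 (63, 21) 3 (e2 k) (w1 k) d₂ d₁ e := by
      rintro d₁ d₂ e g₁ g₂ ⟨k', hk', h | h⟩ hg₁ hg₂ hρ
      · exact (hnA k' hk' ((hin k' hk' d₁ d₂ e g₁ hg₁ g₂ hg₂ hρ).1 h)).elim
      · obtain ⟨rfl, -⟩ := (huniq k' hk').2 ((hin k' hk' d₁ d₂ e g₁ hg₁ g₂ hg₂ hρ).2 h)
        exact h
    refine ⟨X.1, fun b₁ b₂ c hb f₁ hf₁ f₂ hf₂ hρ => congrArg Prod.fst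
      (hX b₂ b₁ c (adm _ _ _ _ _ hb hf₁ hf₂ hρ) f₂ ((mem_l2 _).2 hf₂) f₁ ((mem_l1 _).2 hf₁) hρ).2,
      fun z => ?_⟩
    obtain ⟨b, b', c, f, f', h1, h2, h3, h4, h5, h6⟩ := hZ z
    refine ⟨b', b, c, f', f, ⟨k, hk, .inr h1⟩, (mem_l1 _).1 h3, (mem_l2 _).1 h2, h4, by linarith,
      fun d₁ d₂ e g₁ g₂ hd hg₁ hg₂ hρ hz => ?_⟩
    obtain ⟨q1, q2, q3, q4, q5⟩ := h6 d₂ d₁ e g₂ g₁ (adm _ _ _ _ _ hd hg₁ hg₂ hρ)
      ((mem_l2 _).2 hg₂) ((mem_l1 _).2 hg₁) hρ (by linarith)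
    exact ⟨q2, q1, q3, q5, q4⟩

end Boxes

theorem mem_tileF {n : ℕ} {p : ℝ × (Fin n → ℤ)} : p ∈ tileF n ↔ ∃ f₁ ∈ R1, ∃ f₂ ∈ R2,
    (Real.sqrt 2 * f₁.1 + ((v1 f₁ + v2 f₂ : ℤ) : ℝ),
      lift2 n (mix (63, 21) (20, 10) f₁ f₂)) = p := by
  unfold tileF spots
  simp only [Finset.mem_image, Finset.mem_product]
  exact ⟨fun ⟨f, hf, h⟩ => ⟨f.1, hf.1, f.2, hf.2, h⟩,
    fun ⟨a, ha, b, hb, h⟩ => ⟨(a, b), ⟨ha, hb⟩, h⟩⟩

attribute [local irreducible] tileF R1 R2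

/-- The tile tiles space, in every dimension. -/
theorem exists_sys {n : ℕ} (hn : 2 ≤ n) : ∃ A : Set (ℝ × (Fin n → ℤ)), Sys (tileF n) A := by
  set o : Fin n := ⟨0, by omega⟩ with ho
  set i : Fin n := ⟨1, by omega⟩ with hi
  refine ⟨{a | ∃ b₁ b₂ c, Adm b₁ b₂ c ∧ a.1 = Real.sqrt 2 * b₁.1 + c ∧
    (a.2 o, a.2 i) = mix (63, 21) (20, 10) b₁ b₂}, fun r => ?_⟩
  obtain ⟨X, hX, hZ⟩ := Boxes.row (r o, r i)
  refine ⟨Real.sqrt 2 * X, ?_, fun z => ?_⟩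
  · rintro a ⟨b₁, b₂, c, hb, hx, hu⟩ p hp hr
    obtain ⟨f₁, hf₁, f₂, hf₂, rfl⟩ := mem_tileF.1 hp
    have hρ : mix (63, 21) (20, 10) (b₁ + f₁) (b₂ + f₂) = (r o, r i) := by
      have h1 := congrFun hr o
      have h2 := congrFun hr i
      simp only [Pi.add_apply, lift2, ho, hi, mix] at h1 h2
      simp only [Prod.mk.injEq, mix, ho, hi] at hu ⊢
      obtain ⟨hu1, hu2⟩ := hu
      simp only [Prod.fst_add, Prod.snd_add]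
      constructor <;> norm_num at h1 h2 <;> linarith
    refine ⟨c + v1 f₁ + v2 f₂, ?_⟩
    rw [← hX b₁ b₂ c hb f₁ hf₁ f₂ hf₂ hρ, hx]
    simp only [Prod.fst_add]
    push_cast
    ring
  obtain ⟨b₁, b₂, c, f₁, f₂, hb, hf₁, hf₂, hρ, hz, huniq⟩ := hZ z
  have hphase := hX b₁ b₂ c hb f₁ hf₁ f₂ hf₂ hρ
  refine ⟨((Real.sqrt 2 * b₁.1 + c, r - lift2 n (mix (63, 21) (20, 10) f₁ f₂)),
    (Real.sqrt 2 * f₁.1 + ((v1 f₁ + v2 f₂ : ℤ) : ℝ), lift2 n (mix (63, 21) (20, 10) f₁ f₂))),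
    ⟨⟨b₁, b₂, c, hb, rfl, ?_⟩,
      mem_tileF.2 ⟨f₁, hf₁, f₂, hf₂, rfl⟩, ?_, ?_⟩, ?_⟩
  · simp only [Prod.ext_iff, mix, Prod.fst_add, Prod.snd_add] at hρ ⊢
    obtain ⟨h1, h2⟩ := hρ
    simp only [Pi.sub_apply, lift2, ho, hi]
    norm_num
    constructor <;> linarith
  · simp
  · rw [← hphase, ← hz]
    simp only [Prod.fst_add]
    push_cast
    ring
  rintro ⟨a, p⟩ ⟨⟨d₁, d₂, e, hd, hx, hu⟩, hp, hr, ht⟩
  obtain ⟨g₁, hg₁, g₂, hg₂, rfl⟩ := mem_tileF.1 hp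
  dsimp only at hx hu hr ht
  have hρ' : mix (63, 21) (20, 10) (d₁ + g₁) (d₂ + g₂) = (r o, r i) := by
    have h1 := congrFun hr o
    have h2 := congrFun hr i
    simp only [Pi.add_apply, lift2, ho, hi, mix] at h1 h2
    simp only [Prod.mk.injEq, mix, ho, hi] at hu ⊢
    obtain ⟨hu1, hu2⟩ := hu
    simp only [Prod.fst_add, Prod.snd_add]
    constructor <;> norm_num at h1 h2 <;> linarith
  have hz' : e + v1 g₁ + v2 g₂ = z := by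
    have hq : ((d₁.1 : ℝ) + g₁.1) = X := by
      have := hX d₁ d₂ e hd g₁ hg₁ g₂ hg₂ hρ'
      rw [← this]
      simp
    rw [hx, ← hq] at ht
    push_cast at ht
    have : ((e + v1 g₁ + v2 g₂ : ℤ) : ℝ) = z := by push_cast; linarith
    exact_mod_cast this
  obtain ⟨rfl, rfl, rfl, rfl, rfl⟩ := huniq d₁ d₂ e g₁ g₂ hd hg₁ hg₂ hρ' hz'
  exact Prod.ext (Prod.ext hx (eq_sub_of_add_eq hr)) rfl

end Vale.Agent.P043.R3
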