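import Vale.Agent.P043.R3.Defs

/-!
Helper for P043: the two factors have unique extreme points.
-/

namespace Vale.Agent.P043.R3

/-- A finite set of the closed quadrant containing the origin and a top point on the axis, with
a unique rightmost point, has the unique extreme points wanted by `HasExtreme`. -/
theorem hasExtreme_of_quadrant {R : Finset (ℤ × ℤ)} {Y : ℤ} {e : ℤ × ℤ}
    (h0 : ((0 : ℤ), (0 : ℤ)) ∈ R) (hY : ((0 : ℤ), Y) ∈ R) (he : e ∈ R)
    (hbox : ∀ g ∈ R, 0 ≤ g.1 ∧ 0 ≤ g.2 ∧ g.2 ≤ Y)
    (hmax : ∀ g ∈ R, g ≠ e → g.1 < e.1) : HasExtreme R := by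
  intro u w hu
  have key : ∀ u w : ℚ, 0 < u →
      ∃ f ∈ R, (∀ g ∈ R, g ≠ f → u * g.1 + w * g.2 < u * f.1 + w * f.2) ∨
        ∀ g ∈ R, g ≠ f → u * f.1 + w * f.2 < u * g.1 + w * g.2 := by
    intro u w hu
    rcases lt_trichotomy w 0 with hw | hw | hw
    · refine ⟨(0, Y), hY, Or.inr fun g hg hne => ?_⟩
      obtain ⟨h1, -, h3⟩ := hbox g hg
      have a1 : (0 : ℚ) ≤ u * g.1 := by
        have : (0 : ℚ) ≤ g.1 := by exact_mod_cast h1
        positivity
      have a2 : w * (Y : ℚ) ≤ w * g.2 :=
        mul_le_mul_of_nonpos_left (by exact_mod_cast h3) hw.le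
      rcases eq_or_lt_of_le h1 with h | h
      · have h4 : g.2 < Y := lt_of_le_of_ne h3 fun e' => hne (Prod.ext h.symm e')
        have a3 : w * (Y : ℚ) < w * g.2 := mul_lt_mul_of_neg_left (by exact_mod_cast h4) hw
        simp only [Int.cast_zero, mul_zero]
        linarith
      · have a3 : (0 : ℚ) < u * g.1 := mul_pos hu (by exact_mod_cast h)
        simp only [Int.cast_zero, mul_zero]
        linarith
    · refine ⟨e, he, Or.inl fun g hg hne => ?_⟩
      subst hw
      have a1 : u * (g.1 : ℚ) < u * e.1 :=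
        mul_lt_mul_of_pos_left (by exact_mod_cast hmax g hg hne) hu
      linarith
    · refine ⟨(0, 0), h0, Or.inr fun g hg hne => ?_⟩
      obtain ⟨h1, h2, -⟩ := hbox g hg
      simp only [Int.cast_zero, mul_zero, add_zero]
      rcases eq_or_lt_of_le h1 with h | h
      · have h4 : 0 < g.2 := lt_of_le_of_ne h2 fun e' => hne (Prod.ext h.symm e'.symm)
        have a3 : (0 : ℚ) < w * g.2 := mul_pos hw (by exact_mod_cast h4)
        rw [← h]
        simpa using a3
      · have a3 : (0 : ℚ) < u * g.1 := mul_pos hu (by exact_mod_cast h)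
        have a4 : (0 : ℚ) ≤ w * g.2 := mul_nonneg hw.le (by exact_mod_cast h2)
        linarith
  rcases lt_or_gt_of_ne hu with hn | hp
  · obtain ⟨f, hf, h⟩ := key (-u) (-w) (by linarith)
    refine ⟨f, hf, ?_⟩
    rcases h with h | h
    · exact Or.inr fun g hg hne => by linarith [h g hg hne]
    · exact Or.inl fun g hg hne => by linarith [h g hg hne]
  · exact key u w hp

theorem hasExtreme_R1 : HasExtreme R1 :=
  hasExtreme_of_quadrant (Y := 18) (e := (173, 7)) (by decide +kernel) (by decide +kernel) (by decide +kernel)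
    (by decide +kernel) (by decide +kernel)

theorem hasExtreme_R2 : HasExtreme R2 :=
  hasExtreme_of_quadrant (Y := 8) (e := (21, 5)) (by decide +kernel) (by decide +kernel) (by decide +kernel)
    (by decide +kernel) (by decide +kernel)

end Vale.Agent.P043.R3
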