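import Mathlib
import Vale.Agent.P043.R3.Defs

/-!
Helper for P043: the two factors of the aperiodic tile have no periodic tiling of the plane.
Their masks vanish at characters of `p`-power order only on `p` points, `p = 2, 3`.
-/

namespace Vale.Agent.P043.R3

open Finset Polynomial

/-- The mask of a set at a pair of numbers. -/
noncomputable def mask (R : Finset (ℤ × ℤ)) (s t : ℂ) : ℂ := ∑ z ∈ R, s ^ z.1 * t ^ z.2

theorem sum_root_zpow {q : ℕ} {ω : ℂ} (hω : IsPrimitiveRoot ω q) (k : ℤ) :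
    ∑ a ∈ range q, (ω ^ k) ^ a = if (q : ℤ) ∣ k then (q : ℂ) else 0 := by
  split_ifs with h
  · simp [(hω.zpow_eq_one_iff_dvd k).2 h]
  · have h1 : ω ^ k ≠ 1 := fun e => h ((hω.zpow_eq_one_iff_dvd k).1 e)
    have h2 : (ω ^ k) ^ q = 1 := by
      rw [← zpow_natCast, ← zpow_mul, mul_comm, zpow_mul, zpow_natCast, hω.pow_eq_one, one_zpow]
    rw [geom_sum_eq h1, h2, sub_self, zero_div]

theorem sum_range_mod (f : ℕ → ℕ) (p m : ℕ) :
    ∑ y ∈ range (p * m), f (y % p) = m * ∑ y ∈ range p, f y := by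
  induction m with
  | zero => simp
  | succ m ih =>
    rw [Nat.mul_succ, sum_range_add, ih, Nat.succ_mul]
    congr 1
    exact sum_congr rfl fun y hy => by rw [Nat.mul_add_mod, Nat.mod_eq_of_lt (mem_range.1 hy)]

/-- A set of size divisible by `p²` whose mask vanishes at characters of `p`-power order only on
the vertical points of order `p` does not tile periodically. -/
theorem not_planeTile {R : Finset (ℤ × ℤ)} {p : ℕ} (hp : p.Prime) (hR : p ^ 2 ∣ R.card)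
    (hz : ∀ (e a b : ℕ) (ω : ℂ), IsPrimitiveRoot ω (p ^ e) → a < p ^ e → b < p ^ e →
      (a ≠ 0 ∨ ¬p ^ e ∣ p * b) → mask R (ω ^ a) (ω ^ b) ≠ 0) : ¬PlaneTile R := by
  classical
  rintro ⟨N, T, hN, hT⟩
  have := Fact.mk hp
  set B := range N ×ˢ range N
  have hNz : (0 : ℤ) < N := by exact_mod_cast hN
  have bij : ∀ f : ℤ × ℤ → ℂ, (∀ z z' : ℤ × ℤ, (N : ℤ) ∣ z.1 - z'.1 → (N : ℤ) ∣ z.2 - z'.2 → f z = f z') →
      ∑ q ∈ R ×ˢ T, f (q.1 + q.2) = ∑ z ∈ B, f ((z.1 : ℤ), (z.2 : ℤ)) := by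
    intro f hf
    refine sum_bij (fun q _ => (((q.1.1 + q.2.1) % N).toNat, ((q.1.2 + q.2.2) % N).toNat))
      (fun q _ => ?_) (fun q hq q' hq' e => ?_) (fun z hz => ?_) (fun q _ => ?_)
    · have h1 := Int.emod_lt_of_pos (q.1.1 + q.2.1) hNz
      have h2 := Int.emod_lt_of_pos (q.1.2 + q.2.2) hNz
      simp only [B, mem_product, mem_range]
      omega
    · simp only [Prod.mk.injEq] at e
      have h1 := Int.emod_nonneg (q.1.1 + q.2.1) hNz.ne'
      have h2 := Int.emod_nonneg (q.1.2 + q.2.2) hNz.ne'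
      have h3 := Int.emod_nonneg (q'.1.1 + q'.2.1) hNz.ne'
      have h4 := Int.emod_nonneg (q'.1.2 + q'.2.2) hNz.ne'
      have e1 : (q.1.1 + q.2.1) % (N : ℤ) = (q'.1.1 + q'.2.1) % N := by omega
      have e2 : (q.1.2 + q.2.2) % (N : ℤ) = (q'.1.2 + q'.2.2) % N := by omega
      simp only [mem_product] at hq hq'
      refine (hT (q.1 + q.2)).unique ⟨hq.1, hq.2, by simp, by simp⟩ ⟨hq'.1, hq'.2, ?_, ?_⟩
      · simpa [sub_sub] using Int.ModEq.dvd (Eq.symm e1)
      · simpa [sub_sub] using Int.ModEq.dvd (Eq.symm e2)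
    · obtain ⟨q, ⟨hq1, hq2, d1, d2⟩, -⟩ := hT ((z.1 : ℤ), (z.2 : ℤ))
      simp only [B, mem_product, mem_range] at hz
      refine ⟨q, mem_product.2 ⟨hq1, hq2⟩, ?_⟩
      simp only [sub_sub] at d1 d2
      rw [← Int.emod_eq_emod_iff_emod_sub_eq_zero.2 (Int.emod_eq_zero_of_dvd d1),
        ← Int.emod_eq_emod_iff_emod_sub_eq_zero.2 (Int.emod_eq_zero_of_dvd d2),
        Int.emod_eq_of_lt (by positivity) (by exact_mod_cast hz.1),
        Int.emod_eq_of_lt (by positivity) (by exact_mod_cast hz.2)]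
      simp
    · refine hf _ _ ?_ ?_ <;>
      · simp only [Prod.fst_add, Prod.snd_add]
        rw [Int.toNat_of_nonneg (Int.emod_nonneg _ hNz.ne')]
        exact Int.dvd_self_sub_emod
  have hcard : R.card * T.card = N ^ 2 := by
    have h := bij (fun _ => 1) fun _ _ _ _ => rfl
    simp only [sum_const, card_product, card_range, nsmul_eq_mul, mul_one, B] at h
    rw [sq]
    exact_mod_cast h
  obtain ⟨e, M, hM, hNe⟩ := Nat.exists_eq_pow_mul_and_not_dvd hN.ne' p hp.ne_one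
  set q := p ^ e with hq
  have hq0 : 0 < q := pow_pos hp.pos e
  have he : 1 ≤ e := by
    by_contra h
    have : e = 0 := by omega
    have hN2 : N = M := by rw [hNe, hq, this, pow_zero, one_mul]
    exact hM (hp.dvd_of_dvd_pow (hN2 ▸ hcard ▸ ((dvd_pow_self p two_ne_zero).trans hR).mul_right _))
  have hqp : q = p * p ^ (e - 1) := by rw [← pow_succ', Nat.sub_add_cancel he]
  set ω := Complex.exp (2 * Real.pi * Complex.I / q) with hωd
  have hω : IsPrimitiveRoot ω q := Complex.isPrimitiveRoot_exp q hq0.ne'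
  have hω0 : ω ≠ 0 := Complex.exp_ne_zero _
  have hT0 : ∀ a < q, ∀ b < q, (a ≠ 0 ∨ ¬q ∣ p * b) →
      ∑ τ ∈ T, (ω ^ a) ^ τ.1 * (ω ^ b) ^ τ.2 = 0 := by
    intro a ha b hb hab
    have hper : ∀ c : ℕ, ∀ x x' : ℤ, (N : ℤ) ∣ x - x' → (ω ^ c) ^ x = (ω ^ c) ^ x' := by
      intro c x x' hd
      obtain ⟨j, hj⟩ := ((Int.natCast_dvd_natCast.2 ⟨M, hNe⟩).trans hd : (q : ℤ) ∣ x - x')
      rw [show x = x' + q * j by linarith, zpow_add₀ (pow_ne_zero _ hω0), zpow_mul, zpow_natCast,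
        ← pow_mul, mul_comm c q, pow_mul, hω.pow_eq_one, one_pow, one_zpow, mul_one]
    have h := bij (fun z => (ω ^ a) ^ z.1 * (ω ^ b) ^ z.2) fun z z' h1 h2 => by
      rw [hper a _ _ h1, hper b _ _ h2]
    have hfac : ∑ z ∈ R ×ˢ T, (ω ^ a) ^ (z.1 + z.2).1 * (ω ^ b) ^ (z.1 + z.2).2 =
        mask R (ω ^ a) (ω ^ b) * ∑ τ ∈ T, (ω ^ a) ^ τ.1 * (ω ^ b) ^ τ.2 := by
      rw [mask, sum_mul_sum, sum_product]
      refine sum_congr rfl fun r _ => sum_congr rfl fun τ _ => ?_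
      rw [Prod.fst_add, Prod.snd_add, zpow_add₀ (pow_ne_zero _ hω0), zpow_add₀ (pow_ne_zero _ hω0)]
      ring
    have hzero : ∑ z ∈ B, (ω ^ a) ^ ((z.1 : ℤ)) * (ω ^ b) ^ ((z.2 : ℤ)) = 0 := by
      simp only [B, sum_product, zpow_natCast, ← sum_mul_sum]
      have hg : ∀ c, c < q → c ≠ 0 → ∑ k ∈ range N, (ω ^ c) ^ k = 0 := by
        intro c hc hc0
        rw [geom_sum_eq (hω.pow_ne_one_of_pos_of_lt hc0 hc), hNe, ← pow_mul, mul_left_comm, pow_mul,
          hω.pow_eq_one, one_pow, sub_self, zero_div]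
      rcases eq_or_ne a 0 with rfl | ha0
      · rw [hg b hb fun hb0 => (hab.resolve_left (by simp)) (by simp [hb0]), mul_zero]
      · rw [hg a ha ha0, zero_mul]
    dsimp only at h
    rw [hfac, hzero] at h
    exact (mul_eq_zero.1 h).resolve_left (hz e a b ω hω ha hb hab)
  set cnt : ℕ → ℕ → ℕ := fun x y =>
    (T.filter fun τ => (q : ℤ) ∣ τ.1 - x ∧ (q : ℤ) ∣ τ.2 - y).card with hcnt
  set S : ℕ → ℕ → ℂ := fun x y => ∑ a ∈ range q, ∑ b ∈ range q,
    ((ω ^ a) ^ (-(x : ℤ)) * (ω ^ b) ^ (-(y : ℤ))) * ∑ τ ∈ T, (ω ^ a) ^ τ.1 * (ω ^ b) ^ τ.2 with hS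
  have hinv : ∀ x y, S x y = (q : ℂ) ^ 2 * cnt x y := by
    intro x y
    have h : ∀ τ : ℤ × ℤ, (∑ a ∈ range q, (ω ^ (τ.1 - x)) ^ a) * ∑ b ∈ range q, (ω ^ (τ.2 - y)) ^ b =
        if (q : ℤ) ∣ τ.1 - x ∧ (q : ℤ) ∣ τ.2 - y then (q : ℂ) ^ 2 else 0 := fun τ => by
      rw [sum_root_zpow hω, sum_root_zpow hω]
      by_cases h1 : (q : ℤ) ∣ τ.1 - x <;> by_cases h2 : (q : ℤ) ∣ τ.2 - y <;> simp [h1, h2, sq]
    have hsw : ∀ (u : ℤ) (c : ℕ), (ω ^ u) ^ c = (ω ^ c) ^ u := fun u c => by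
      rw [← zpow_natCast, ← zpow_mul, mul_comm, zpow_mul, zpow_natCast]
    calc S x y = ∑ τ ∈ T, (∑ a ∈ range q, (ω ^ (τ.1 - x)) ^ a) * ∑ b ∈ range q, (ω ^ (τ.2 - y)) ^ b := by
          simp only [hS, sum_mul_sum]
          simp only [mul_sum]
          rw [sum_comm (s := T)]
          refine sum_congr rfl fun a _ => ?_
          rw [sum_comm (s := T)]
          refine sum_congr rfl fun b _ => sum_congr rfl fun τ _ => ?_
          rw [hsw, hsw, sub_eq_neg_add, sub_eq_neg_add, zpow_add₀ (pow_ne_zero _ hω0),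
            zpow_add₀ (pow_ne_zero _ hω0)]
          ring
      _ = _ := by
          simp only [h, ← sum_filter, sum_const, nsmul_eq_mul, hcnt, mul_comm]
  have hsame : ∀ x y, S x y = S 0 (y % p) := by
    intro x y
    refine sum_congr rfl fun a ha => sum_congr rfl fun b hb => ?_
    by_cases hab : a ≠ 0 ∨ ¬q ∣ p * b
    · rw [hT0 a (mem_range.1 ha) b (mem_range.1 hb) hab, mul_zero, mul_zero]
    · push Not at hab
      obtain ⟨rfl, j, hj⟩ := hab
      congr 1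
      simp only [pow_zero, one_zpow, one_mul]
      rw [zpow_neg, zpow_neg, zpow_natCast, zpow_natCast]
      nth_rewrite 1 [← Nat.mod_add_div y p]
      rw [pow_add, ← pow_mul ω b (p * (y / p)), ← mul_assoc, mul_comm b p, hj, mul_assoc, pow_mul ω q,
        hω.pow_eq_one, one_pow, mul_one]
  have hcc : ∀ x y, cnt x y = cnt 0 (y % p) := fun x y => by
    have h := hsame x y
    rw [hinv, hinv] at h
    exact_mod_cast mul_left_cancel₀ (pow_ne_zero 2 (Nat.cast_ne_zero.2 hq0.ne')) h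
  have hsum : T.card = ∑ x ∈ range q, ∑ y ∈ range q, cnt x y := by
    have hqz : (0 : ℤ) < q := by exact_mod_cast hq0
    rw [card_eq_sum_card_fiberwise (f := fun τ : ℤ × ℤ => ((τ.1 % q).toNat, (τ.2 % q).toNat))
      (t := range q ×ˢ range q) fun τ _ => by
        have h1 := Int.emod_lt_of_pos τ.1 hqz
        have h2 := Int.emod_lt_of_pos τ.2 hqz
        simp only [mem_coe, mem_product, mem_range]
        omega, sum_product]
    refine sum_congr rfl fun x hx => sum_congr rfl fun y hy => ?_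
    refine congrArg Finset.card (filter_congr fun τ _ => ?_)
    have hx' : ((x : ℤ)) % q = x := Int.emod_eq_of_lt (by positivity) (by exact_mod_cast mem_range.1 hx)
    have hy' : ((y : ℤ)) % q = y := Int.emod_eq_of_lt (by positivity) (by exact_mod_cast mem_range.1 hy)
    rw [Int.dvd_iff_emod_eq_zero, Int.dvd_iff_emod_eq_zero, ← Int.emod_eq_emod_iff_emod_sub_eq_zero,
      ← Int.emod_eq_emod_iff_emod_sub_eq_zero, hx', hy', Prod.mk.injEq]
    have h1 := Int.emod_nonneg τ.1 hqz.ne'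
    have h2 := Int.emod_nonneg τ.2 hqz.ne'
    omega
  replace hsum := hsum.trans (sum_congr rfl fun x _ => sum_congr rfl fun y _ => hcc x y)
  rw [sum_const, card_range, smul_eq_mul] at hsum
  have hK : T.card = q * (p ^ (e - 1) * ∑ y ∈ range p, cnt 0 y) := by
    rw [hsum]
    congr 1
    rw [hqp]
    exact sum_range_mod _ _ _
  have hd : p ^ (2 * e + 1) ∣ N ^ 2 := by
    have h := mul_dvd_mul hR (Dvd.intro _ (show q * p ^ (e - 1) * (∑ y ∈ range p, cnt 0 y) = T.card by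
      rw [hK, mul_assoc]))
    rw [hcard, hq, ← pow_add, ← pow_add, show 2 + (e + (e - 1)) = 2 * e + 1 by omega] at h
    exact h
  rw [hNe, mul_pow, ← pow_mul, mul_comm e 2, pow_succ] at hd
  exact hM (hp.dvd_of_dvd_pow (Nat.dvd_of_mul_dvd_mul_left (pow_pos hp.pos _) hd))

/-- An integer polynomial vanishing at a primitive root of order `p^e` vanishes to order `φ (p^e)`
at one modulo `p`. -/
theorem pow_dvd_of_aeval {p e : ℕ} [Fact p.Prime] (he : 1 ≤ e) {ω : ℂ}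
    (hω : IsPrimitiveRoot ω (p ^ e)) {P : ℤ[X]} (hP : aeval ω P = 0) :
    (X - 1) ^ (p ^ e - p ^ (e - 1)) ∣ P.map (Int.castRingHom (ZMod p)) := by
  have hp : p.Prime := Fact.out
  have hpe : 0 < p ^ e := pow_pos hp.pos e
  have h : cyclotomic (p ^ e) ℤ ∣ P := by
    rw [cyclotomic_eq_minpoly hω hpe]
    exact minpoly.isIntegrallyClosed_dvd (hω.isIntegral hpe) hP
  have h2 := Polynomial.map_dvd (Int.castRingHom (ZMod p)) h
  rw [map_cyclotomic, ← mul_one (p ^ e),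
    cyclotomic_mul_prime_pow_eq (ZMod p) hp.not_dvd_one (by omega), cyclotomic_one] at h2
  simpa using h2

/-- No multiple of a prime is a unit among the sums of roots of unity. -/
theorem mul_aeval_ne_one {q : ℕ} (hq : 1 < q) {ω : ℂ} (hω : IsPrimitiveRoot ω q) {r : ℕ}
    (hr : r.Prime) (W : ℤ[X]) : (r : ℂ) * aeval ω W ≠ 1 := by
  intro h
  have := Fact.mk hr
  have hd : cyclotomic q ℤ ∣ C (r : ℤ) * W - 1 := by
    rw [cyclotomic_eq_minpoly hω (by omega)]
    exact minpoly.isIntegrallyClosed_dvd (hω.isIntegral (by omega)) (by simp [h])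
  have h2 := Polynomial.map_dvd (Int.castRingHom (ZMod r)) hd
  rw [map_cyclotomic, Polynomial.map_sub, Polynomial.map_mul, map_C, Polynomial.map_one] at h2
  simp only [map_natCast, ZMod.natCast_self, map_zero, zero_mul, zero_sub, dvd_neg] at h2
  have h3 := natDegree_eq_zero_of_isUnit (isUnit_of_dvd_one h2)
  rw [natDegree_cyclotomic] at h3
  exact (Nat.totient_pos.2 (by omega : 0 < q)).ne' h3

/-- The inverse of a short geometric sum at a root of unity of coprime order. -/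
theorem exists_inv_geom {q c : ℕ} (hc : Nat.Coprime c q) (hq : 1 < q) :
    ∃ l : ℕ, ∀ x : ℂ, x ^ q = 1 → x ≠ 1 → (∑ k ∈ range c, x ^ k) * ∑ k ∈ range l, (x ^ c) ^ k = 1 := by
  obtain ⟨l, -, hl⟩ := Nat.exists_mul_mod_eq_one_of_coprime hc hq
  refine ⟨l, fun x hx hx1 => ?_⟩
  have hy : (x ^ c) ^ l = x := by
    rw [← pow_mul, ← Nat.mod_add_div (c * l) q, hl, pow_add, pow_one, pow_mul, hx, one_pow, mul_one]
  refine mul_right_cancel₀ (sub_ne_zero.2 hx1) ?_
  rw [one_mul, mul_comm (∑ k ∈ range c, x ^ k), mul_assoc, geom_sum_mul, geom_sum_mul, hy]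

theorem geom_ne_zero {q c : ℕ} (hc : Nat.Coprime c q) (hq : 1 < q) (hc0 : 0 < c) {x : ℂ}
    (hx : x ^ q = 1) : ∑ k ∈ range c, x ^ k ≠ 0 := by
  rcases eq_or_ne x 1 with rfl | hx1
  · simp [hc0.ne']
  · obtain ⟨l, hl⟩ := exists_inv_geom hc hq
    exact fun h => by simpa [h] using hl x hx hx1

/-- Two terms of different order at one cannot cancel to high order. -/
theorem no_cancel {p : ℕ} [Fact p.Prime] {v w E E' D : ℕ} (hv : ¬p ∣ v) (hE : E < E') (hD : E < D)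
    {F U : (ZMod p)[X]} (hU : U.eval 1 ≠ 0)
    (h : (X - 1) ^ D ∣ (X ^ w - 1) ^ E' * F + (X ^ v - 1) ^ E * U) : False := by
  have e : ∀ n : ℕ, (X ^ n - 1 : (ZMod p)[X]) = (X - 1) * ∑ k ∈ range n, X ^ k := fun n =>
    (mul_geom_sum X n).symm
  have h1 : (X - 1 : (ZMod p)[X]) ^ (E + 1) ∣ (X ^ w - 1) ^ E' * F := by
    rw [e, mul_pow, mul_assoc]
    exact (pow_dvd_pow _ (by omega)).trans (dvd_mul_right _ _)
  have h2 := (dvd_add_right h1).1 ((pow_dvd_pow _ (by omega)).trans h)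
  rw [e, mul_pow, mul_assoc, pow_succ] at h2
  have h3 := eval_dvd (x := (1 : ZMod p))
    ((mul_dvd_mul_iff_left (pow_ne_zero E (X_sub_C_ne_zero 1))).1 (by simpa using h2))
  simp [hU, ZMod.natCast_eq_zero_iff, hv] at h3

theorem pow_X_sub_one {p : ℕ} [Fact p.Prime] (v d : ℕ) :
    (X ^ (p ^ d * v) - 1 : (ZMod p)[X]) = (X ^ v - 1) ^ p ^ d := by
  rw [sub_pow_char_pow, one_pow, ← pow_mul, mul_comm]

theorem R1_mask (s t : ℂ) : mask R1 s t =
    (∑ k ∈ range 3, (s ^ 21) ^ k) * (∑ k ∈ range 7, (t ^ 3) ^ k) +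
      t ^ 7 * (s ^ 63 + t ^ 7) * ((∑ k ∈ range 3, (s ^ 28) ^ k) * ∑ k ∈ range 7, (s ^ 9) ^ k) := by
  have e : ∀ n : ℕ, ∀ u : ℂ, u ^ (n : ℤ) = u ^ n := fun n u => zpow_natCast u n
  have c1 : ∀ m k : ℕ, 28 * (m : ℤ) + 9 * (k : ℤ) + 63 = ((28 * m + 9 * k + 63 : ℕ) : ℤ) := by simp
  have c2 : ∀ m k : ℕ, 28 * (m : ℤ) + 9 * (k : ℤ) = ((28 * m + 9 * k : ℕ) : ℤ) := by simp
  have c3 : ∀ m : ℕ, 21 * (m : ℤ) = ((21 * m : ℕ) : ℤ) := by simp
  have c4 : ∀ m : ℕ, 3 * (m : ℤ) = ((3 * m : ℕ) : ℤ) := by simp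
  rw [mask, R1, sum_union (by decide), sum_union (by decide), sum_image, sum_image, sum_image]
  · simp only [sum_product, c1, c3, c4]
    simp only [c2, e, show (7 : ℤ) = ((7 : ℕ) : ℤ) from rfl, show (14 : ℤ) = ((14 : ℕ) : ℤ) from rfl,
      pow_add, pow_mul, ← sum_mul, ← mul_sum]
    simp only [sum_range_succ, sum_range_zero]
    ring
  all_goals
    intro x hx y hy hxy
    simp only [coe_product, Set.mem_prod, coe_range, Set.mem_Iio] at hx hy
    simp only [Prod.mk.injEq] at hxy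
    exact Prod.ext (by omega) (by omega)

theorem R2_mask (s t : ℂ) : mask R2 s t =
    (∑ k ∈ range 2, (s ^ 10) ^ k) * (∑ k ∈ range 5, (t ^ 2) ^ k) +
      t ^ 5 * ((∑ k ∈ range 2, (s ^ 5) ^ k) * ∑ k ∈ range 5, (s ^ 4) ^ k) := by
  have e : ∀ n : ℕ, ∀ u : ℂ, u ^ (n : ℤ) = u ^ n := fun n u => zpow_natCast u n
  have c1 : ∀ m k : ℕ, 5 * (m : ℤ) + 4 * (k : ℤ) = ((5 * m + 4 * k : ℕ) : ℤ) := by simp
  have c3 : ∀ m : ℕ, 10 * (m : ℤ) = ((10 * m : ℕ) : ℤ) := by simp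
  have c4 : ∀ m : ℕ, 2 * (m : ℤ) = ((2 * m : ℕ) : ℤ) := by simp
  rw [mask, R2, sum_union (by decide), sum_image, sum_image]
  · simp only [sum_product, c1]
    simp only [c3, c4, e, show (5 : ℤ) = ((5 : ℕ) : ℤ) from rfl, pow_add, pow_mul, ← sum_mul, ← mul_sum]
    simp only [sum_range_succ, sum_range_zero]
    ring
  all_goals
    intro x hx y hy hxy
    simp only [coe_product, Set.mem_prod, coe_range, Set.mem_Iio] at hx hy
    simp only [Prod.mk.injEq] at hxy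
    exact Prod.ext (by omega) (by omega)

theorem exists_split {p e a : ℕ} (hp : p.Prime) (ha : a ≠ 0) (hae : a < p ^ e) :
    ∃ d a', d < e ∧ ¬p ∣ a' ∧ a = p ^ d * a' := by
  obtain ⟨d, a', h, rfl⟩ := Nat.exists_eq_pow_mul_and_not_dvd ha p hp.ne_one
  refine ⟨d, a', ?_, h, rfl⟩
  have : a' ≠ 0 := fun h0 => ha (by rw [h0, mul_zero])
  exact (Nat.pow_lt_pow_iff_right hp.one_lt).1 ((Nat.le_mul_of_pos_right _ (by omega)).trans_lt hae)

theorem not_planeTile_R2 : ¬PlaneTile R2 := by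
  have : Fact (Nat.Prime 2) := ⟨Nat.prime_two⟩
  refine not_planeTile Nat.prime_two (by decide) fun e a b ω hω ha hb hab h => ?_
  rw [R2_mask] at h
  have he : 1 ≤ e := by
    by_contra h0
    rw [show e = 0 by omega, pow_zero] at ha hb hab
    simp at hab
    omega
  have hq : 1 < 2 ^ e := Nat.one_lt_two_pow (by omega)
  have hco : Nat.Coprime 5 (2 ^ e) := Nat.Coprime.pow_right _ (by decide)
  have ht : ((ω ^ b) ^ 2) ^ (2 ^ e) = 1 := by
    rw [pow_right_comm _ 2, pow_right_comm ω b, hω.pow_eq_one, one_pow, one_pow]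
  rcases eq_or_ne a 0 with rfl | ha0
  · have hx1 : (ω ^ b) ^ 2 ≠ 1 := by
      rw [← pow_mul, mul_comm]
      exact fun h1 => (hab.resolve_left (by simp)) ((hω.pow_eq_one_iff_dvd _).1 h1)
    obtain ⟨l, hl⟩ := exists_inv_geom hco hq
    refine mul_aeval_ne_one hq hω (r := 5) (by norm_num)
      (-(X ^ (b * 5) * ∑ k ∈ range l, ((X ^ (b * 2)) ^ 5) ^ k)) ?_
    have hi := hl _ ht hx1
    simp only [pow_zero, one_pow, sum_const, card_range, nsmul_eq_mul, mul_one] at h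
    simp only [map_neg, map_mul, map_sum, map_pow, aeval_X, pow_mul]
    push_cast at h ⊢
    linear_combination hi - ((∑ k ∈ range l, (((ω ^ b) ^ 2) ^ 5) ^ k) / 2) * h
  obtain ⟨d, a', hd, ha', rfl⟩ := exists_split Nat.prime_two ha0 ha
  rcases Nat.lt_or_ge (d + 1) e with hde | hde
  · set P : ℤ[X] := (∑ k ∈ range 2, ((X ^ (2 ^ d * a')) ^ 10) ^ k) * (∑ k ∈ range 5, ((X ^ b) ^ 2) ^ k) +
      (X ^ b) ^ 5 * ((∑ k ∈ range 2, ((X ^ (2 ^ d * a')) ^ 5) ^ k) *
        ∑ k ∈ range 5, ((X ^ (2 ^ d * a')) ^ 4) ^ k) with hP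
    have hd2 := pow_dvd_of_aeval (p := 2) he hω (P := P) (by simpa [P, map_sum] using h)
    have h2 : (2 : (ZMod 2)[X]) = 0 := by exact_mod_cast CharP.cast_eq_zero (ZMod 2)[X] 2
    have hs : ∀ Y : (ZMod 2)[X], ∑ k ∈ range 2, Y ^ k = Y - 1 := fun Y => by
      simp only [sum_range_succ, sum_range_zero]
      linear_combination h2
    simp only [P, Polynomial.map_add, Polynomial.map_mul, Polynomial.map_sum, Polynomial.map_pow,
      map_X, hs] at hd2
    rw [← pow_mul X (2 ^ d * a') 10, ← pow_mul X (2 ^ d * a') 5,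
      show 2 ^ d * a' * 10 = 2 ^ (d + 1) * (a' * 5) by ring,
      show 2 ^ d * a' * 5 = 2 ^ d * (a' * 5) by ring, pow_X_sub_one, pow_X_sub_one,
      mul_left_comm _ ((X ^ (a' * 5) - 1) ^ 2 ^ d)] at hd2
    refine no_cancel (by rw [Nat.prime_two.dvd_mul]; omega) (Nat.pow_lt_pow_right one_lt_two
      (Nat.lt_succ_self d)) ?_ ?_ hd2
    · have h3 := Nat.pow_lt_pow_right one_lt_two (show d < e - 1 by omega)
      have h4 : 2 ^ e = 2 * 2 ^ (e - 1) := by rw [← pow_succ', Nat.sub_add_cancel he]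
      omega
    · have h5 : ((5 : ℕ) : ZMod 2) ≠ 0 := by rw [Ne, ZMod.natCast_eq_zero_iff]; norm_num
      simpa [eval_finsetSum] using h5
  · have hs : (ω ^ (2 ^ d * a')) ^ 2 = 1 := by
      rw [← pow_mul, show 2 ^ d * a' * 2 = 2 ^ (d + 1) * a' by ring, show d + 1 = e by omega, pow_mul,
        hω.pow_eq_one, one_pow]
    have hs1 : ω ^ (2 ^ d * a') = -1 :=
      (sq_eq_one_iff.1 hs).resolve_left (hω.pow_ne_one_of_pos_of_lt ha0 ha)
    simp only [hs1, sum_range_succ _ 1, sum_range_one] at h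
    norm_num at h
    exact geom_ne_zero hco hq (by norm_num) ht h

theorem not_planeTile_R1 : ¬PlaneTile R1 := by
  have : Fact (Nat.Prime 3) := ⟨Nat.prime_three⟩
  have hcard : R1.card = 63 := by
    have h : mask R1 1 1 = R1.card := by
      simp only [mask, one_zpow, mul_one, sum_const, nsmul_eq_mul]
    have h2 : (R1.card : ℂ) = ((63 : ℕ) : ℂ) := by
      rw [← h, R1_mask]
      simp only [one_pow, sum_const, card_range, nsmul_eq_mul]
      norm_num
    exact Nat.cast_inj.1 h2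
  refine not_planeTile Nat.prime_three (by rw [hcard]; norm_num) fun e a b ω hω ha hb hab h => ?_
  rw [R1_mask] at h
  have he : 1 ≤ e := by
    by_contra h0
    rw [show e = 0 by omega, pow_zero] at ha hb hab
    simp at hab
    omega
  have hq : 1 < 3 ^ e := Nat.one_lt_pow (by omega) (by norm_num)
  have hco : Nat.Coprime 7 (3 ^ e) := Nat.Coprime.pow_right _ (by decide)
  have ht : ((ω ^ b) ^ 3) ^ (3 ^ e) = 1 := by
    rw [pow_right_comm _ 3, pow_right_comm ω b, hω.pow_eq_one, one_pow, one_pow]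
  rcases eq_or_ne a 0 with rfl | ha0
  · have hx1 : (ω ^ b) ^ 3 ≠ 1 := by
      rw [← pow_mul, mul_comm]
      exact fun h1 => (hab.resolve_left (by simp)) ((hω.pow_eq_one_iff_dvd _).1 h1)
    obtain ⟨l, hl⟩ := exists_inv_geom hco hq
    refine mul_aeval_ne_one hq hω (r := 7) (by norm_num)
      (-(X ^ (b * 7) * (1 + X ^ (b * 7)) * ∑ k ∈ range l, ((X ^ (b * 3)) ^ 7) ^ k)) ?_
    have hi := hl _ ht hx1
    simp only [pow_zero, one_pow, sum_const, card_range, nsmul_eq_mul, mul_one] at h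
    simp only [map_neg, map_mul, map_add, map_one, map_sum, map_pow, aeval_X, pow_mul]
    push_cast at h ⊢
    linear_combination hi - ((∑ k ∈ range l, (((ω ^ b) ^ 3) ^ 7) ^ k) / 3) * h
  obtain ⟨d, a', hd, ha', rfl⟩ := exists_split Nat.prime_three ha0 ha
  rcases Nat.lt_or_ge (d + 1) e with hde | hde
  · set P : ℤ[X] := (∑ k ∈ range 3, ((X ^ (3 ^ d * a')) ^ 21) ^ k) * (∑ k ∈ range 7, ((X ^ b) ^ 3) ^ k) +
      (X ^ b) ^ 7 * ((X ^ (3 ^ d * a')) ^ 63 + (X ^ b) ^ 7) *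
        ((∑ k ∈ range 3, ((X ^ (3 ^ d * a')) ^ 28) ^ k) *
          ∑ k ∈ range 7, ((X ^ (3 ^ d * a')) ^ 9) ^ k) with hP
    have hd2 := pow_dvd_of_aeval (p := 3) he hω (P := P) (by simpa [P, map_sum] using h)
    have h3 : (3 : (ZMod 3)[X]) = 0 := by exact_mod_cast CharP.cast_eq_zero (ZMod 3)[X] 3
    have hs : ∀ Y : (ZMod 3)[X], ∑ k ∈ range 3, Y ^ k = (Y - 1) ^ 2 := fun Y => by
      simp only [sum_range_succ, sum_range_zero]
      linear_combination Y * h3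
    simp only [P, Polynomial.map_add, Polynomial.map_mul, Polynomial.map_sum, Polynomial.map_pow,
      map_X, hs] at hd2
    rw [← pow_mul X (3 ^ d * a') 21, ← pow_mul X (3 ^ d * a') 28,
      show 3 ^ d * a' * 21 = 3 ^ (d + 1) * (a' * 7) by ring,
      show 3 ^ d * a' * 28 = 3 ^ d * (a' * 28) by ring, pow_X_sub_one, pow_X_sub_one,
      ← pow_mul (X ^ (a' * 7) - 1 : (ZMod 3)[X]), ← pow_mul (X ^ (a' * 28) - 1 : (ZMod 3)[X]),
      mul_left_comm _ ((X ^ (a' * 28) - 1 : (ZMod 3)[X]) ^ (3 ^ d * 2))] at hd2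
    refine no_cancel (by rw [Nat.prime_three.dvd_mul]; omega) (Nat.mul_lt_mul_of_pos_right
      (Nat.pow_lt_pow_right (by norm_num) (Nat.lt_succ_self d)) two_pos) ?_ ?_ hd2
    · have h4 := Nat.pow_lt_pow_right (show 1 < 3 by norm_num) (show d < e - 1 by omega)
      have h5 : 3 ^ e = 3 * 3 ^ (e - 1) := by rw [← pow_succ', Nat.sub_add_cancel he]
      omega
    · have h5 : ((14 : ℕ) : ZMod 3) ≠ 0 := by rw [Ne, ZMod.natCast_eq_zero_iff]; norm_num
      refine fun h0 => h5 (Eq.trans ?_ h0)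
      simp [eval_finsetSum]
      norm_num
  · have hs : (ω ^ (3 ^ d * a')) ^ 3 = 1 := by
      rw [← pow_mul, show 3 ^ d * a' * 3 = 3 ^ (d + 1) * a' by ring, show d + 1 = e by omega, pow_mul,
        hω.pow_eq_one, one_pow]
    have hs1 := hω.pow_ne_one_of_pos_of_lt ha0 ha
    set s := ω ^ (3 ^ d * a')
    have e21 : s ^ 21 = 1 := by rw [show (21 : ℕ) = 3 * 7 from rfl, pow_mul, hs, one_pow]
    have e28 : s ^ 28 = s := by rw [show (28 : ℕ) = 3 * 9 + 1 from rfl, pow_succ, pow_mul, hs, one_pow, one_mul]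
    have h0 : ∑ k ∈ range 3, s ^ k = 0 := by rw [geom_sum_eq hs1, hs, sub_self, zero_div]
    rw [e28, h0, e21] at h
    simp at h
    exact geom_ne_zero hco hq (by norm_num) ht h

end Vale.Agent.P043.R3
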