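import Vale.Agent.P043.R3.Defs

/-!
Helper for P043 R3: the row system has no solution with a full lattice of periods, as soon as
neither factor tiles the plane periodically. See notes/P043/R3/PROOF.md, section 2.
-/

namespace Vale.Agent.P043.R3

open Finset

/-- A function on the plane with periods `(N, 0)`, `(0, N)` only depends on residues. -/
lemma eq_of_dvd_sub {β : Type*} {N : ℕ} {f : ℤ × ℤ → β}
    (h₁ : Function.Periodic f ((N : ℤ), (0 : ℤ))) (h₂ : Function.Periodic f ((0 : ℤ), (N : ℤ)))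
    {u v : ℤ × ℤ} (d₁ : (N : ℤ) ∣ u.1 - v.1) (d₂ : (N : ℤ) ∣ u.2 - v.2) : f u = f v := by
  obtain ⟨x, hx⟩ := d₁
  obtain ⟨y, hy⟩ := d₂
  have e : v + (x • ((N : ℤ), (0 : ℤ)) + y • ((0 : ℤ), (N : ℤ))) = u := by
    ext <;> simp <;> linarith
  have := ((h₁.zsmul x).add_period (h₂.zsmul y)) v
  rwa [e] at this

/-- Extreme point induction: if `∑ M (r - b i) = k` and the levels of the positive terms differ
by a function with a unique maximum, then one of the factors tiles the plane periodically. -/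
lemma planeTile_of_max {N k : ℕ} (hN : 0 < N) (hk : 0 < k) {S T : Finset (ℤ × ℤ)} (b : ℤ × ℤ)
    (χ : ℤ × ℤ → ℤ × ℤ) (h₁ h₂ : ℤ × ℤ → ℚ) (m : ℤ × ℤ → ℕ) (K ι : ℤ × ℤ → ℚ)
    (hsum : ∀ r, ∑ i ∈ S, ∑ j ∈ T, m (r - (b.1 * i.1, b.2 * i.2) - χ j) = k)
    (hph : ∀ r, ∀ i ∈ S, ∀ j ∈ T, m (r - (b.1 * i.1, b.2 * i.2) - χ j) ≠ 0 →
      K (r - (b.1 * i.1, b.2 * i.2) - χ j) + h₁ i + h₂ j = ι r)
    (hm₁ : Function.Periodic m ((N : ℤ), (0 : ℤ))) (hm₂ : Function.Periodic m ((0 : ℤ), (N : ℤ)))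
    (hK₁ : Function.Periodic K ((N : ℤ), (0 : ℤ))) (hK₂ : Function.Periodic K ((0 : ℤ), (N : ℤ)))
    {f₀ : ℤ × ℤ} (hf₀ : f₀ ∈ S) (hmax : ∀ g ∈ S, g ≠ f₀ → h₁ g < h₁ f₀) : PlaneTile S := by
  classical
  set φ : ℤ × ℤ → ℤ × ℤ := fun i => (b.1 * i.1, b.2 * i.2) with hφ
  set M : ℤ × ℤ → ℕ := fun v => ∑ j ∈ T, m (v - χ j) with hM
  set Q : ℤ × ℤ → ℚ := fun v => ι (v + φ f₀) - h₁ f₀ with hQ
  have ks : ∀ r, ∑ i ∈ S, M (r - φ i) = k := hsum
  have lvl : ∀ r, ∀ i ∈ S, M (r - φ i) ≠ 0 → ∃ j ∈ T, m (r - φ i - χ j) ≠ 0 ∧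
      Q (r - φ i) = K (r - φ i - χ j) + h₂ j ∧ Q (r - φ i) + h₁ i = ι r := by
    intro r i hi hne
    obtain ⟨j, hj, hmj⟩ := exists_ne_zero_of_sum_ne_zero hne
    have e : r - φ i + φ f₀ - φ f₀ = r - φ i := add_sub_cancel_right _ _
    have h0 := hph (r - φ i + φ f₀) f₀ hf₀ j hj
    simp only [show (b.1 * f₀.1, b.2 * f₀.2) = φ f₀ from rfl, e] at h0
    have h0 := h0 hmj
    have h1 := hph r i hi j hj hmj
    exact ⟨j, hj, hmj, by simp only [hQ]; linarith,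
      by simp only [hQ]; rw [show (b.1 * i.1, b.2 * i.2) = φ i from rfl] at h1; linarith⟩
  have big : ∀ v, M v ≠ 0 → k ≤ M v := by
    by_contra hcon
    push Not at hcon
    let V : Finset ℚ := (((range N ×ˢ range N).image fun p : ℕ × ℕ => ((p.1 : ℤ), (p.2 : ℤ))) ×ˢ T).image
      (fun p => K p.1 + h₂ p.2)
    have inV : ∀ v, M v ≠ 0 → Q v ∈ V := by
      intro v hv
      have hv' : M (v + φ f₀ - φ f₀) ≠ 0 := by rwa [add_sub_cancel_right]
      obtain ⟨j, hj, -, hq, -⟩ := lvl (v + φ f₀) f₀ hf₀ hv'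
      rw [add_sub_cancel_right] at hq
      set u := v - χ j
      have hN' : (N : ℤ) ≠ 0 := by omega
      refine mem_image.2 ⟨((u.1 % N, u.2 % N), j), mem_product.2 ⟨mem_image.2
        ⟨((u.1 % N).toNat, (u.2 % N).toNat), ?_, ?_⟩, hj⟩, ?_⟩
      · have a1 := Int.emod_nonneg u.1 hN'
        have a2 := Int.emod_nonneg u.2 hN'
        have b1 := Int.emod_lt_of_pos u.1 (show (0 : ℤ) < N by omega)
        have b2 := Int.emod_lt_of_pos u.2 (show (0 : ℤ) < N by omega)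
        simp only [mem_product, mem_range]; omega
      · simp [Int.toNat_of_nonneg (Int.emod_nonneg _ hN')]
      · rw [hq, eq_of_dvd_sub hK₁ hK₂ (u := (u.1 % N, u.2 % N)) (v := u)
          (by simp [Int.emod_def]) (by simp [Int.emod_def])]
    obtain ⟨v₀, hv₀, hv₀'⟩ := hcon
    obtain ⟨q, hq, hqmax⟩ := exists_max_image
      (V.filter fun q => ∃ v, M v ≠ 0 ∧ M v < k ∧ Q v = q) id
      ⟨Q v₀, mem_filter.2 ⟨inV v₀ hv₀, v₀, hv₀, hv₀', rfl⟩⟩
    obtain ⟨v, hv, hvk, rfl⟩ := (mem_filter.1 hq).2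
    have hv' : M (v + φ f₀ - φ f₀) ≠ 0 := by rwa [add_sub_cancel_right]
    have hs := ks (v + φ f₀)
    rw [← add_sum_erase _ _ hf₀, add_sub_cancel_right] at hs
    have rest : ∀ i ∈ S.erase f₀, M (v + φ f₀ - φ i) = 0 := by
      intro i hi
      by_contra hne
      have hle := single_le_sum (f := fun i => M (v + φ f₀ - φ i)) (fun _ _ => Nat.zero_le _) hi
      by_cases hbig : k ≤ M (v + φ f₀ - φ i)
      · have := Nat.pos_of_ne_zero hv
        omega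
      · obtain ⟨hi₀, hiS⟩ := mem_erase.1 hi
        obtain ⟨-, -, -, -, e1⟩ := lvl (v + φ f₀) i hiS hne
        obtain ⟨-, -, -, -, e2⟩ := lvl (v + φ f₀) f₀ hf₀ hv'
        rw [add_sub_cancel_right] at e2
        have h3 := hqmax (Q (v + φ f₀ - φ i))
          (mem_filter.2 ⟨inV _ hne, _, hne, by omega, rfl⟩)
        have h4 := hmax i hiS hi₀
        simp only [id] at h3
        linarith
    rw [sum_eq_zero rest] at hs
    omega
  have per : ∀ u v : ℤ × ℤ, (N : ℤ) ∣ u.1 - v.1 → (N : ℤ) ∣ u.2 - v.2 → M (φ u) = M (φ v) := by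
    intro u v d₁ d₂
    refine Finset.sum_congr rfl fun j _ => eq_of_dvd_sub hm₁ hm₂ ?_ ?_
    · simpa [hφ, ← mul_sub] using d₁.mul_left b.1
    · simpa [hφ, ← mul_sub] using d₂.mul_left b.2
  have lin : ∀ z i, φ z - φ i = φ (z - i) := by intro z i; ext <;> simp [hφ, mul_sub]
  have uniq : ∀ z, ∃! i, i ∈ S ∧ M (φ (z - i)) ≠ 0 := by
    intro z
    have hs := ks (φ z)
    simp only [lin] at hs
    obtain ⟨i, hi, hne⟩ := exists_ne_zero_of_sum_ne_zero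
      (s := S) (f := fun i => M (φ (z - i))) (by rw [hs]; omega)
    refine ⟨i, ⟨hi, hne⟩, fun i' ⟨hi', hne'⟩ => by_contra fun hne'' => ?_⟩
    have := add_sum_erase S (fun i => M (φ (z - i))) hi
    have h2 := single_le_sum (f := fun i => M (φ (z - i))) (fun _ _ => Nat.zero_le _)
      (mem_erase.2 ⟨hne'', hi'⟩)
    have h3 := big _ hne
    have h4 := Nat.pos_of_ne_zero hne'
    omega
  refine ⟨N, ((range N ×ˢ range N).image fun p : ℕ × ℕ => ((p.1 : ℤ), (p.2 : ℤ))).filter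
    (fun t => M (φ t) ≠ 0), hN, fun z => ?_⟩
  obtain ⟨i, ⟨hi, hne⟩, hu⟩ := uniq z
  have hN' : (N : ℤ) ≠ 0 := by omega
  refine ⟨(i, ((z - i).1 % N, (z - i).2 % N)), ⟨hi, mem_filter.2 ⟨mem_image.2
    ⟨(((z - i).1 % N).toNat, ((z - i).2 % N).toNat), ?_, ?_⟩, ?_⟩, ?_, ?_⟩, ?_⟩
  · have a1 := Int.emod_nonneg (z - i).1 hN'
    have a2 := Int.emod_nonneg (z - i).2 hN'
    have b1 := Int.emod_lt_of_pos (z - i).1 (show (0 : ℤ) < N by omega)
    have b2 := Int.emod_lt_of_pos (z - i).2 (show (0 : ℤ) < N by omega)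
    simp only [mem_product, mem_range]; omega
  · simp [Int.toNat_of_nonneg (Int.emod_nonneg _ hN')]
  · rwa [per _ (z - i) (by simp [Int.emod_def]) (by simp [Int.emod_def])]
  · simp [Int.emod_def]
  · simp [Int.emod_def]
  · rintro ⟨i', t⟩ ⟨hi', ht, d₁, d₂⟩
    obtain ⟨ht, htne⟩ := mem_filter.1 ht
    obtain ⟨⟨x, y⟩, hxy, rfl⟩ := mem_image.1 ht
    have : i' = i := hu i' ⟨hi', by rwa [per (z - i') ((x : ℤ), (y : ℤ)) d₁ d₂]⟩
    subst this
    simp only [mem_product, mem_range] at hxy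
    have key : ∀ (t : ℕ) (w : ℤ), t < N → (N : ℤ) ∣ w - t → (t : ℤ) = w % N := by
      intro t w ht hd
      rw [(Int.modEq_iff_dvd.2 hd).symm.eq, Int.emod_eq_of_lt (by omega) (by omega)]
    ext
    · rfl
    · rfl
    · exact key _ _ hxy.1 d₁
    · exact key _ _ hxy.2 d₂

/-- `planeTile_of_max` with a unique extreme point of either kind. -/
lemma planeTile_of_extreme {N k : ℕ} (hN : 0 < N) (hk : 0 < k) {S T : Finset (ℤ × ℤ)} (b : ℤ × ℤ)
    (χ : ℤ × ℤ → ℤ × ℤ) (h₁ h₂ : ℤ × ℤ → ℚ) (m : ℤ × ℤ → ℕ) (K ι : ℤ × ℤ → ℚ)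
    (hsum : ∀ r, ∑ i ∈ S, ∑ j ∈ T, m (r - (b.1 * i.1, b.2 * i.2) - χ j) = k)
    (hph : ∀ r, ∀ i ∈ S, ∀ j ∈ T, m (r - (b.1 * i.1, b.2 * i.2) - χ j) ≠ 0 →
      K (r - (b.1 * i.1, b.2 * i.2) - χ j) + h₁ i + h₂ j = ι r)
    (hm₁ : Function.Periodic m ((N : ℤ), (0 : ℤ))) (hm₂ : Function.Periodic m ((0 : ℤ), (N : ℤ)))
    (hK₁ : Function.Periodic K ((N : ℤ), (0 : ℤ))) (hK₂ : Function.Periodic K ((0 : ℤ), (N : ℤ)))
    (hx : ∃ f ∈ S, (∀ g ∈ S, g ≠ f → h₁ g < h₁ f) ∨ ∀ g ∈ S, g ≠ f → h₁ f < h₁ g) :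
    PlaneTile S := by
  obtain ⟨f, hf, hmax | hmin⟩ := hx
  · exact planeTile_of_max hN hk b χ h₁ h₂ m K ι hsum hph hm₁ hm₂ hK₁ hK₂ hf hmax
  · exact planeTile_of_max hN hk b χ (fun i => -h₁ i) (fun j => -h₂ j) m (fun u => -K u)
      (fun r => -ι r) hsum (fun r i hi j hj hne => by have := hph r i hi j hj hne; linarith)
      hm₁ hm₂ (fun u => by simp [hK₁ u]) (fun u => by simp [hK₂ u]) hf
      fun g hg hne => neg_lt_neg (hmin g hg hne)

/-- A rational linear functional on the line killing `1` but not `√2`. -/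
lemma exists_irr_coord : ∃ I : ℝ →ₗ[ℚ] ℚ, I 1 = 0 ∧ I (Real.sqrt 2) = 1 := by
  have hind : LinearIndepOn ℚ id ({1, Real.sqrt 2} : Set ℝ) := by
    rw [LinearIndepOn.pair_iff id (by simpa [eq_comm] using irrational_sqrt_two.ne_one.symm)]
    intro s t hst
    simp only [id, Rat.smul_def, mul_one] at hst
    by_cases ht : t = 0
    · subst ht
      simp only [Rat.cast_zero, zero_mul, add_zero, Rat.cast_eq_zero] at hst
      exact ⟨hst, rfl⟩
    · refine (irrational_sqrt_two ⟨-s / t, ?_⟩).elim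
      have : (t : ℝ) ≠ 0 := Rat.cast_ne_zero.2 ht
      push_cast
      rw [div_eq_iff this]
      linarith
  let B := Module.Basis.extend hind
  have h1 : (1 : ℝ) ∈ hind.extend (Set.subset_univ _) := hind.subset_extend _ (by simp)
  have h2 : Real.sqrt 2 ∈ hind.extend (Set.subset_univ _) := hind.subset_extend _ (by simp)
  have e : ∀ v, B v = (v : ℝ) := fun v => Module.Basis.extend_apply_self hind v
  refine ⟨B.coord ⟨Real.sqrt 2, h2⟩, ?_, ?_⟩
  · refine (congrArg (B.coord ⟨Real.sqrt 2, h2⟩) (e ⟨1, h1⟩).symm).trans ?_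
    rw [Module.Basis.coord_apply, Module.Basis.repr_self]
    exact Finsupp.single_eq_of_ne fun h => irrational_sqrt_two.ne_one (congrArg Subtype.val h)
  · refine (congrArg (B.coord ⟨Real.sqrt 2, h2⟩) (e ⟨_, h2⟩).symm).trans ?_
    rw [Module.Basis.coord_apply, Module.Basis.repr_self, Finsupp.single_eq_same]

lemma lift2_sub (n : ℕ) (p q : ℤ × ℤ) : lift2 n (p - q) = lift2 n p - lift2 n q := by
  funext k; simp only [lift2, Pi.sub_apply]; split_ifs <;> simp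

lemma lift2_injective {n : ℕ} (hn : 2 ≤ n) : Function.Injective (lift2 n) := by
  intro p q h
  have h0 := congrFun h ⟨0, by omega⟩
  have h1 := congrFun h ⟨1, by omega⟩
  simp [lift2] at h0 h1
  exact Prod.ext h0 h1

lemma lift2_add_fst {n : ℕ} (hn : 2 ≤ n) (u : ℤ × ℤ) (N : ℤ) :
    lift2 n (u + (N, 0)) = lift2 n u + Pi.single ⟨0, by omega⟩ N := by
  funext k; simp only [lift2, Pi.add_apply, Pi.single_apply, Fin.ext_iff]; split_ifs <;> simp_all

lemma lift2_add_snd {n : ℕ} (hn : 2 ≤ n) (u : ℤ × ℤ) (N : ℤ) :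
    lift2 n (u + (0, N)) = lift2 n u + Pi.single ⟨1, by omega⟩ N := by
  funext k; simp only [lift2, Pi.add_apply, Pi.single_apply, Fin.ext_iff]; split_ifs <;> simp_all

/-- A periodic set of integers has as many points in `[0, k)` as its translates. -/
lemma card_filter_shift {k : ℕ} (hk : 0 < k) (p : ℤ → Prop) [DecidablePred p]
    (hp : Function.Periodic p (k : ℤ)) (d : ℤ) :
    ((Ico (0 : ℤ) k).filter fun z => p (z + d)).card = ((Ico (0 : ℤ) k).filter p).card := by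
  have hk' : (k : ℤ) ≠ 0 := by omega
  have hmod : ∀ z, p (z % k) ↔ p z := fun z => by
    have := (hp.zsmul (z / k)) (z % k)
    rw [smul_eq_mul, Int.emod_add_ediv_mul] at this
    simp [this]
  have inr : ∀ z : ℤ, z % k ∈ Ico (0 : ℤ) k := fun z =>
    Finset.mem_Ico.2 ⟨Int.emod_nonneg _ hk', Int.emod_lt_of_pos _ (by omega)⟩
  refine card_nbij' (fun z => (z + d) % k) (fun z => (z - d) % k) ?_ ?_ ?_ ?_
  · intro z hz
    simp only [coe_filter, Set.mem_ofPred_eq] at hz ⊢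
    exact ⟨inr _, (hmod _).2 hz.2⟩
  · intro z hz
    simp only [coe_filter, Set.mem_ofPred_eq] at hz ⊢
    refine ⟨inr _, (hmod _).1 ?_⟩
    rw [Int.emod_add_emod, sub_add_cancel]
    exact (hmod _).2 hz.2
  · intro z hz
    simp only [coe_filter, Set.mem_ofPred_eq, Finset.mem_Ico] at hz
    dsimp only
    rw [sub_eq_add_neg, Int.emod_add_emod, add_neg_cancel_right, Int.emod_eq_of_lt hz.1.1 hz.1.2]
  · intro z hz
    simp only [coe_filter, Set.mem_ofPred_eq, Finset.mem_Ico] at hz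
    dsimp only
    rw [Int.emod_add_emod, sub_add_cancel, Int.emod_eq_of_lt hz.1.1 hz.1.2]

theorem not_periodic_sys {n : ℕ} (hn : 2 ≤ n) {a b : ℤ × ℤ} (ha : a.1 ≠ 0 ∧ a.2 ≠ 0) (_hb : b.1 ≠ 0 ∧ b.2 ≠ 0)
    {S₁ S₂ : Finset (ℤ × ℤ)} (c₁ c₂ : ℤ × ℤ → ℤ)
    (hinj : Set.InjOn (fun f : (ℤ × ℤ) × (ℤ × ℤ) => mix a b f.1 f.2) (S₁ ×ˢ S₂ : Finset _))
    (hx₁ : HasExtreme S₁) (hx₂ : HasExtreme S₂) (ht₁ : ¬PlaneTile S₁) (ht₂ : ¬PlaneTile S₂)
    {A : Set (ℝ × (Fin n → ℤ))} (hA : Sys (spots n a b S₁ S₂ c₁ c₂) A)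
    {P : ℝ} (hP : 0 < P) (hPA : ∀ x u, (x + P, u) ∈ A ↔ (x, u) ∈ A)
    {N : ℕ} (hN : 0 < N) (s : Fin n → ℝ)
    (hs : ∀ c x u, (x + s c, u + Pi.single c (N : ℤ)) ∈ A ↔ (x, u) ∈ A) : False := by
  classical
  obtain ⟨I, hI1, hI2⟩ := exists_irr_coord
  have hIz : ∀ z : ℤ, I (z : ℝ) = 0 := fun z => by
    rw [← zsmul_one z, map_zsmul, hI1, smul_zero]
  have hIs : ∀ z : ℤ, I (Real.sqrt 2 * z) = z := fun z => by
    rw [mul_comm, ← zsmul_eq_mul, map_zsmul, hI2, zsmul_one]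
  set pos : (ℤ × ℤ) × (ℤ × ℤ) → ℝ :=
    fun f => Real.sqrt 2 * f.1.1 + ((c₁ f.1 + c₂ f.2 : ℤ) : ℝ) with hpos
  have hIp : ∀ f, I (pos f) = (f.1.1 : ℚ) := fun f => by
    simp only [hpos, map_add, hIs, hIz, add_zero]
  have sys : ∀ r : ℤ × ℤ, ∃ ψ : ℝ,
      (∀ f ∈ S₁ ×ˢ S₂, ∀ x, (x, lift2 n (r - mix a b f.1 f.2)) ∈ A →
        ∃ z : ℤ, x + pos f = ψ + z) ∧
      ∀ z : ℤ, ∃! f, f ∈ S₁ ×ˢ S₂ ∧ (ψ + z - pos f, lift2 n (r - mix a b f.1 f.2)) ∈ A := by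
    intro r
    obtain ⟨ψ, h1, h2⟩ := hA (lift2 n r)
    have mem : ∀ f ∈ S₁ ×ˢ S₂,
        (pos f, lift2 n (mix a b f.1 f.2)) ∈ spots n a b S₁ S₂ c₁ c₂ :=
      fun f hf => mem_image_of_mem _ hf
    refine ⟨ψ, fun f hf x hx => h1 _ hx _ (mem f hf) (by simp [lift2_sub]), fun z => ?_⟩
    obtain ⟨⟨p, q⟩, ⟨hp, hq, hr, hz⟩, hu⟩ := h2 z
    obtain ⟨f, hf, rfl⟩ := mem_image.1 hq
    refine ⟨f, ⟨hf, ?_⟩, fun g hg => ?_⟩
    · have e : (ψ + z - pos f, lift2 n (r - mix a b f.1 f.2)) = p := by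
        refine Prod.ext ?_ ?_
        · simp only [hpos] at hz ⊢; linarith
        · simp only at hr ⊢; rw [lift2_sub, ← hr]; abel
      rwa [e]
    · have := hu ((ψ + z - pos g, lift2 n (r - mix a b g.1 g.2)), _)
        ⟨hg.2, mem g hg.1, by simp [lift2_sub], by simp⟩
      have e := congrArg (fun q : (ℝ × (Fin n → ℤ)) × (ℝ × (Fin n → ℤ)) => q.2.2) this
      exact hinj hg.1 hf (lift2_injective hn e)
  choose ψ hcos huni using sys
  clear_value pos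
  obtain ⟨i₀, hi₀, -⟩ := hx₁ 1 0 one_ne_zero
  obtain ⟨j₀, hj₀, -⟩ := hx₂ 1 0 one_ne_zero
  have hf₀ : (i₀, j₀) ∈ S₁ ×ˢ S₂ := mem_product.2 ⟨hi₀, hj₀⟩
  -- the period of the rows is a natural number
  obtain ⟨k, hk, rfl⟩ : ∃ k : ℕ, 0 < k ∧ P = (k : ℝ) := by
    obtain ⟨f, ⟨hf, hfA⟩, -⟩ := huni 0 0
    obtain ⟨z, hz⟩ := hcos 0 f hf _ ((hPA _ _).2 hfA)
    have hPz : P = (z : ℝ) := by push_cast at hz; linarith
    have : 0 < z := by exact_mod_cast hPz ▸ hP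
    exact ⟨z.toNat, by omega, by rw [hPz]; exact_mod_cast (Int.toNat_of_nonneg this.le).symm⟩
  -- number of points per period in a row
  set cnt : ℝ → ℤ × ℤ → ℕ :=
    fun θ u => ((Ico (0 : ℤ) k).filter fun z : ℤ => (θ + (z : ℝ), lift2 n u) ∈ A).card with hcnt
  set θ : ℤ × ℤ → ℝ := fun u => ψ (u + mix a b i₀ j₀) - pos (i₀, j₀) with hθ
  have hX : ∀ u x, (x, lift2 n u) ∈ A → ∃ z : ℤ, x = θ u + z := fun u x hx => by
    obtain ⟨z, hz⟩ := hcos (u + mix a b i₀ j₀) _ hf₀ x (by rwa [add_sub_cancel_right])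
    exact ⟨z, by simp only [hθ]; linarith⟩
  have cnt_eq : ∀ (u : ℤ × ℤ) (φ : ℝ),
      (∀ x, (x, lift2 n u) ∈ A → ∃ z : ℤ, x = φ + z) → cnt φ u = cnt (θ u) u := by
    intro u φ hφ
    by_cases he : ∃ x, (x, lift2 n u) ∈ A
    · obtain ⟨x, hx⟩ := he
      obtain ⟨z, hz⟩ := hX u x hx
      obtain ⟨z', hz'⟩ := hφ x hx
      have per : Function.Periodic (fun z : ℤ => (θ u + z, lift2 n u) ∈ A) (k : ℤ) := fun y => by
        simp only [Int.cast_add, Int.cast_natCast, ← add_assoc, hPA]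
      have := card_filter_shift hk _ per (z - z')
      simp only [hcnt]
      rw [← this]
      congr 2
      funext y
      congr 2
      push_cast
      linarith
    · push Not at he
      simp [hcnt, he]
  set m : ℤ × ℤ → ℕ := fun u => cnt (θ u) u with hm
  have hmI : ∀ u, m u ≠ 0 → ∃ x, (x, lift2 n u) ∈ A ∧ I x = I (θ u) := fun u hu => by
    obtain ⟨z, hz⟩ := card_ne_zero.1 hu
    exact ⟨_, (mem_filter.1 hz).2, by rw [map_add, hIz, add_zero]⟩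
  have row : ∀ r, ∑ f ∈ S₁ ×ˢ S₂, m (r - mix a b f.1 f.2) = k := by
    intro r
    have : ∀ f ∈ S₁ ×ˢ S₂, m (r - mix a b f.1 f.2) =
        cnt (ψ r - pos f) (r - mix a b f.1 f.2) := fun f hf => by
      refine (cnt_eq _ _ fun x hx => ?_).symm
      obtain ⟨z, hz⟩ := hcos r f hf x hx
      exact ⟨z, by linarith⟩
    rw [sum_congr rfl this]
    simp only [hcnt, card_filter]
    rw [sum_comm]
    refine (sum_eq_card_nsmul (b := 1) fun z _ => ?_).trans (by simp)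
    obtain ⟨f, ⟨hf, hfA⟩, hu⟩ := huni r z
    rw [sum_eq_single_of_mem f hf fun g hg hne => if_neg fun hgA => hne (hu g ⟨hg, ?_⟩),
      if_pos ?_]
    · rwa [sub_add_eq_add_sub]
    · rwa [sub_add_eq_add_sub] at hgA
  have phase : ∀ r, ∀ f ∈ S₁ ×ˢ S₂, m (r - mix a b f.1 f.2) ≠ 0 →
      I (θ (r - mix a b f.1 f.2)) + f.1.1 = I (ψ r) := by
    intro r f hf hne
    obtain ⟨x, hx, hIx⟩ := hmI _ hne
    obtain ⟨z, hz⟩ := hcos r f hf x hx
    have := congrArg I hz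
    rw [map_add, map_add, hIz, hIp, hIx, add_zero] at this
    exact this
  -- the periods
  have shift : ∀ (c : Fin n) (e : ℤ × ℤ), (∀ u, lift2 n (u + e) = lift2 n u + Pi.single c (N : ℤ)) →
      Function.Periodic m e ∧ ∀ u, m u ≠ 0 → I (θ (u + e)) = I (θ u) + I (s c) := by
    intro c e he
    refine ⟨fun u => ?_, fun u hu => ?_⟩
    · simp only [hm]
      rw [← cnt_eq u (θ (u + e) - s c) fun x hx => ?_]
      · simp only [hcnt]
        congr 1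
        refine filter_congr fun z _ => ?_
        rw [he, ← hs c (θ (u + e) - s c + z)]
        ring_nf
      · obtain ⟨z, hz⟩ := hX (u + e) (x + s c) (by rw [he]; exact (hs c x _).2 hx)
        exact ⟨z, by linarith⟩
    · obtain ⟨x, hx, hIx⟩ := hmI u hu
      obtain ⟨z, hz⟩ := hX (u + e) (x + s c) (by rw [he]; exact (hs c x _).2 hx)
      have := congrArg I hz
      rw [map_add, map_add, hIz, hIx, add_zero] at this
      exact this.symm
  obtain ⟨hm₁, hJ₁⟩ := shift _ ((N : ℤ), (0 : ℤ)) fun u => lift2_add_fst hn u _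
  obtain ⟨hm₂, hJ₂⟩ := shift _ ((0 : ℤ), (N : ℤ)) fun u => lift2_add_snd hn u _
  set l₁ : ℚ := I (s ⟨0, by omega⟩) / N with hl₁
  set l₂ : ℚ := I (s ⟨1, by omega⟩) / N with hl₂
  set K : ℤ × ℤ → ℚ :=
    fun u => if m u = 0 then 0 else I (θ u) - (l₁ * u.1 + l₂ * u.2) with hK
  have hN' : (N : ℚ) ≠ 0 := by exact_mod_cast hN.ne'
  have hK₁ : Function.Periodic K ((N : ℤ), (0 : ℤ)) := fun u => by
    simp only [hK, hm₁ u]
    split_ifs with h
    · rfl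
    · rw [hJ₁ u h]; simp [hl₁]; field_simp; ring
  have hK₂ : Function.Periodic K ((0 : ℤ), (N : ℤ)) := fun u => by
    simp only [hK, hm₂ u]
    split_ifs with h
    · rfl
    · rw [hJ₂ u h]; simp [hl₂]; field_simp; ring
  have hph : ∀ r, ∀ i ∈ S₁, ∀ j ∈ S₂, m (r - mix a b i j) ≠ 0 →
      K (r - mix a b i j) + (i.1 : ℚ) =
        I (ψ r) - (l₁ * r.1 + l₂ * r.2) + (l₁ * (mix a b i j).1 + l₂ * (mix a b i j).2) := by
    intro r i hi j hj hne
    have := phase r (i, j) (mem_product.2 ⟨hi, hj⟩) hne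
    simp only [hK, if_neg hne, Prod.fst_sub, Prod.snd_sub, Int.cast_sub] at this ⊢
    linarith
  have row' : ∀ r, ∑ i ∈ S₁, ∑ j ∈ S₂, m (r - mix a b i j) = k := fun r => by
    rw [← row r, sum_product]
  by_cases hl : l₁ = 0
  · have hsplit : ∀ r i j : ℤ × ℤ,
        r - (b.1 * i.1, b.2 * i.2) - (a.1 * j.1, a.2 * j.2) = r - mix a b i j := fun r i j => by
      ext <;> simp [mix] <;> ring
    refine ht₁ (planeTile_of_extreme hN hk b (fun j => (a.1 * j.1, a.2 * j.2))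
      (fun i => 1 * (i.1 : ℚ) + -(l₂ * b.2) * i.2) (fun j => -(l₂ * a.2) * j.2) m K
      (fun r => I (ψ r) - (l₁ * r.1 + l₂ * r.2)) (T := S₂) ?_ ?_ hm₁ hm₂ hK₁ hK₂
      (hx₁ 1 (-(l₂ * b.2)) one_ne_zero))
    · exact fun r => by simp only [hsplit]; exact row' r
    · intro r i hi j hj hne
      rw [hsplit] at hne ⊢
      have := hph r i hi j hj hne
      simp only [mix, hl, Int.cast_add, Int.cast_mul] at this ⊢
      linarith
  · have hsplit : ∀ r i j : ℤ × ℤ,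
        r - (a.1 * j.1, a.2 * j.2) - (b.1 * i.1, b.2 * i.2) = r - mix a b i j := fun r i j => by
      ext <;> simp [mix] <;> ring
    refine ht₂ (planeTile_of_extreme hN hk a (fun i => (b.1 * i.1, b.2 * i.2))
      (fun j => -(l₁ * a.1) * (j.1 : ℚ) + -(l₂ * a.2) * j.2)
      (fun i => (i.1 : ℚ) - l₁ * b.1 * i.1 - l₂ * b.2 * i.2) m K
      (fun r => I (ψ r) - (l₁ * r.1 + l₂ * r.2)) (T := S₁) ?_ ?_ hm₁ hm₂ hK₁ hK₂
      (hx₂ _ (-(l₂ * a.2)) (neg_ne_zero.2 (mul_ne_zero hl (Int.cast_ne_zero.2 ha.1)))))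
    · exact fun r => by rw [sum_comm]; simp only [hsplit]; exact row' r
    · intro r j hj i hi hne
      rw [hsplit] at hne ⊢
      have := hph r i hi j hj hne
      simp only [mix, Int.cast_add, Int.cast_mul] at this ⊢
      linarith

end Vale.Agent.P043.R3
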