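import Vale.Agent.P043.R3.Rigid
import Vale.Agent.P043.R3.Periodic
import Vale.Agent.P043.R3.NonTile
import Vale.Agent.P043.R3.Exists
import Vale.Agent.P043.R3.Extreme

/-!
Helper for P043: the aperiodic tile in every dimension `d ≥ 3`.
-/

namespace Vale.Agent.P043.R3

open MeasureTheory

variable {n : ℕ}

attribute [local irreducible] tileF R1 R2

/-- The vectors whose translation preserves `A`. -/
def perGroup {E : Type*} [AddCommGroup E] (A : Set E) : AddSubgroup E where
  carrier := {w | ∀ a, a + w ∈ A ↔ a ∈ A}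
  zero_mem' := fun a => by rw [add_zero]
  add_mem' := fun {w w'} hw hw' a => by rw [← add_assoc, hw', hw]
  neg_mem' := fun {w} hw a => by rw [← hw (a + -w), add_assoc, neg_add_cancel, add_zero]

theorem pt_sub (p q : ℝ × (Fin n → ℤ)) : pt (p - q) = pt p - pt q := by
  unfold pt
  ext <;> simp

theorem pt_injective : Function.Injective (pt : ℝ × (Fin n → ℤ) → ℝ × (Fin n → ℝ)) := by
  intro p q h
  simp only [pt, Prod.mk.injEq] at h
  exact Prod.ext h.1 (funext fun k => by exact_mod_cast congrFun h.2 k)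

theorem tileF_nonempty (n : ℕ) : (tileF n).Nonempty :=
  ⟨_, mem_tileF.2 ⟨((0 : ℤ), (0 : ℤ)), by decide +kernel, ((0 : ℤ), (0 : ℤ)), by decide +kernel,
    rfl⟩⟩

theorem tileF_injOn (hn : 2 ≤ n) :
    Set.InjOn Prod.snd (tileF n : Set (ℝ × (Fin n → ℤ))) := by
  intro p hp q hq h
  rw [Finset.mem_coe] at hp hq
  obtain ⟨f₁, hf₁, f₂, hf₂, rfl⟩ := mem_tileF.1 hp
  obtain ⟨g₁, hg₁, g₂, hg₂, rfl⟩ := mem_tileF.1 hq
  have h' : mix (63, 21) (20, 10) f₁ f₂ = mix (63, 21) (20, 10) g₁ g₂ :=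
    lift2_injective hn h
  have := mix_injOn (x₁ := (f₁, f₂)) (by simp [hf₁, hf₂]) (x₂ := (g₁, g₂))
    (by simp [hg₁, hg₂]) h'
  simp only [Prod.mk.injEq] at this
  rw [this.1, this.2]

/-- Independent periods with integral rows give a horizontal period and a multiple of every row
unit vector. -/
theorem exists_periods {B : Set (ℝ × (Fin n → ℤ))} {ι : Type*} [Fintype ι]
    (hι : Fintype.card ι = n + 1) (m : ι → ℝ × (Fin n → ℤ))
    (hm : ∀ i, m i ∈ perGroup B) (hli : LinearIndependent ℝ fun i => pt (m i)) :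
    (∃ P : ℝ, 0 < P ∧ ∀ x u, (x + P, u) ∈ B ↔ (x, u) ∈ B) ∧
      ∃ N : ℕ, 0 < N ∧ ∃ s : Fin n → ℝ,
        ∀ c x u, (x + s c, u + Pi.single c (N : ℤ)) ∈ B ↔ (x, u) ∈ B := by
  classical
  let f : (ι → ℚ) →ₗ[ℚ] (Fin n → ℚ) :=
    Fintype.linearCombination ℚ fun i => fun k => ((m i).2 k : ℚ)
  have hf : ∀ g k, f g k = ∑ i, g i * ((m i).2 k : ℚ) := fun g k => by
    simp [f, Fintype.linearCombination_apply, Finset.sum_apply]
  -- integral combinations
  have hint : ∀ g : ι → ℚ, ∃ D : ℕ, 0 < D ∧ ∃ z : ι → ℤ, ∀ i, (z i : ℚ) = D * g i := by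
    intro g
    refine ⟨∏ i, (g i).den, Finset.prod_pos fun i _ => (g i).den_pos,
      fun i => (g i).num * ((∏ j ∈ Finset.univ.erase i, (g j).den : ℕ) : ℤ), fun i => ?_⟩
    rw [← Finset.mul_prod_erase Finset.univ (fun j => (g j).den) (Finset.mem_univ i)]
    push_cast
    rw [← Rat.mul_den_eq_num (g i)]
    ring
  have hmem : ∀ z : ι → ℤ, (∑ i, z i • m i) ∈ perGroup B := fun z =>
    (perGroup B).sum_mem fun i _ => (perGroup B).zsmul_mem (hm i) (z i)
  have hker : LinearMap.ker f ≠ ⊥ := by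
    apply LinearMap.ker_ne_bot_of_finrank_lt
    simp [hι]
  obtain ⟨g, hg, hg0⟩ := Submodule.exists_mem_ne_zero_of_ne_bot hker
  rw [LinearMap.mem_ker] at hg
  obtain ⟨D, hD, z, hz⟩ := hint g
  set w := ∑ i, z i • m i with hw
  have hw2 : w.2 = 0 := by
    funext k
    have h1 : ((w.2 k : ℤ) : ℚ) = D * f g k := by
      rw [hf, Finset.mul_sum]
      simp only [hw, Prod.snd_sum, Finset.sum_apply, Prod.smul_snd, Pi.smul_apply, smul_eq_mul,
        Int.cast_sum, Int.cast_mul, hz, mul_assoc]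
    rw [hg] at h1
    simpa using h1
  have hw1 : w.1 ≠ 0 := by
    intro h1
    have h2 : ∑ i, (z i : ℝ) • pt (m i) = 0 := by
      have e : pt w = ∑ i, (z i : ℝ) • pt (m i) := by
        unfold pt
        refine Prod.ext ?_ (funext fun k => ?_)
        · simp [hw, Prod.fst_sum]
        · simp [hw, Prod.snd_sum, Finset.sum_apply]
      rw [← e]
      unfold pt
      ext <;> simp [h1, hw2]
    have h3 := Fintype.linearIndependent_iff.1 hli _ h2
    refine hg0 (funext fun i => ?_)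
    have h4 : z i = 0 := by exact_mod_cast h3 i
    have h5 := hz i
    rw [h4, Int.cast_zero] at h5
    rcases mul_eq_zero.1 h5.symm with h | h
    · exact absurd (Nat.cast_eq_zero.1 h) hD.ne'
    · simpa using h
  have hsurj : Function.Surjective f := by
    rw [← LinearMap.range_eq_top]
    by_contra hne
    obtain ⟨φ, hφ0, hφ⟩ := Submodule.exists_le_ker_of_lt_top _ (lt_top_iff_ne_top.2 hne)
    let Φ : (ℝ × (Fin n → ℝ)) →ₗ[ℝ] ℝ :=
      (Fintype.linearCombination ℝ fun k => ((φ (Pi.single k 1) : ℚ) : ℝ)).comp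
        (LinearMap.snd ℝ ℝ (Fin n → ℝ))
    have hb := (basisOfLinearIndependentOfCardEqFinrank' _ hli (by simp [hι, add_comm]))
    have hspan : Submodule.span ℝ (Set.range fun i => pt (m i)) = ⊤ :=
      hli.span_eq_top_of_card_eq_finrank' (by simp [hι, add_comm])
    have hz' : Φ = 0 := by
      refine LinearMap.ext_on_range hspan fun i => ?_
      have h1 : φ (f (Pi.single i 1)) = 0 := hφ ⟨_, rfl⟩
      rw [LinearMap.pi_apply_eq_sum_univ φ] at h1
      simp [f, Fintype.linearCombination_apply] at h1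
      have h2 : ((∑ k, ((m i).2 k : ℚ) * φ (Pi.single k 1) : ℚ) : ℝ) = 0 := by
        rw [show (∑ k, ((m i).2 k : ℚ) * φ (Pi.single k 1)) = 0 from by
          refine Eq.trans (Finset.sum_congr rfl fun k _ => ?_) h1
          congr 1
          · simp [Pi.single_apply]
          · congr 1
            funext j
            simp [Pi.single_apply, eq_comm]]
        simp
      simpa [Φ, pt, Fintype.linearCombination_apply] using h2
    refine hφ0 (LinearMap.pi_ext' fun k => LinearMap.ext_ring ?_)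
    have h3 := LinearMap.congr_fun hz' ((0 : ℝ), Pi.single k (1 : ℝ))
    simpa [Φ, Fintype.linearCombination_apply, Pi.single_apply] using h3
  choose G hG using fun c : Fin n => hsurj (Pi.single c 1)
  choose Dc hDc zc hzc using fun c => hint (G c)
  refine ⟨?_, ∏ c, Dc c, Finset.prod_pos fun c _ => hDc c, ?_⟩
  · rcases lt_or_gt_of_ne hw1 with h | h
    · refine ⟨-w.1, by linarith, fun x u => ?_⟩
      have e : ((x, u) : ℝ × (Fin n → ℤ)) + -w = (x + -w.1, u) :=
        Prod.ext rfl (by simp [hw2])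
      rw [← e]
      exact (perGroup B).neg_mem (hmem z) (x, u)
    · refine ⟨w.1, h, fun x u => ?_⟩
      have e : ((x, u) : ℝ × (Fin n → ℤ)) + w = (x + w.1, u) := Prod.ext rfl (by simp [hw2])
      rw [← e]
      exact hmem z (x, u)
  · refine ⟨fun c => ((∏ d ∈ Finset.univ.erase c, Dc d : ℕ) : ℝ) * (∑ i, zc c i • m i).1,
      fun c x u => ?_⟩
    have h := (perGroup B).nsmul_mem (hmem (zc c)) (∏ d ∈ Finset.univ.erase c, Dc d) (x, u)
    have e : ((∏ d ∈ Finset.univ.erase c, Dc d) • ∑ i, zc c i • m i).2 =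
        Pi.single c ((∏ d, Dc d : ℕ) : ℤ) := by
      funext k
      have h1 : (((∑ i, zc c i • m i).2 k : ℤ) : ℚ) = (Dc c : ℚ) * (Pi.single c 1 : Fin n → ℚ) k := by
        rw [← hG c, hf, Finset.mul_sum]
        simp only [Prod.snd_sum, Finset.sum_apply, Prod.smul_snd, Pi.smul_apply, smul_eq_mul,
          Int.cast_sum, Int.cast_mul, hzc, mul_assoc]
      have h2 : ((∑ i, zc c i • m i).2 k) = Pi.single (M := fun _ => ℤ) c (Dc c : ℤ) k := by
        rcases eq_or_ne k c with rfl | hk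
        · simp only [Pi.single_eq_same, mul_one] at h1 ⊢
          exact_mod_cast h1
        · simp only [Pi.single_eq_of_ne hk, mul_zero] at h1 ⊢
          exact_mod_cast h1
      rw [Prod.smul_snd, Pi.smul_apply, h2,
        ← Finset.mul_prod_erase Finset.univ Dc (Finset.mem_univ c)]
      rcases eq_or_ne k c with rfl | hk
      · simp [mul_comm]
      · simp [Pi.single_eq_of_ne hk]
    convert h using 2
    refine Prod.ext ?_ ?_
    · simp only [Prod.fst_add, nsmul_eq_mul, Prod.fst_mul, Prod.fst_natCast]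
    · simp only [Prod.snd_add, e]

theorem exists_aperiodic (d : ℕ) (hd : 3 ≤ d) :
    ∃ Ω : Set (Fin d → ℝ), MeasurableSet Ω ∧ Bornology.IsBounded Ω ∧ 0 < volume Ω ∧
      (∃ A : Set (Fin d → ℝ), (∀ᵐ x, ∃ a ∈ A, x - a ∈ Ω) ∧
        ∀ a ∈ A, ∀ b ∈ A, a ≠ b → volume ({x | x - a ∈ Ω} ∩ {x | x - b ∈ Ω}) = 0) ∧
      ∀ A : Set (Fin d → ℝ),
        ((∀ᵐ x, ∃ a ∈ A, x - a ∈ Ω) ∧
          ∀ a ∈ A, ∀ b ∈ A, a ≠ b → volume ({x | x - a ∈ Ω} ∩ {x | x - b ∈ Ω}) = 0) →
        ¬∃ v : Fin d → Fin d → ℝ, LinearIndependent ℝ v ∧ ∀ i a, a + v i ∈ A ↔ a ∈ A := by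
  obtain ⟨n, rfl⟩ : ∃ n, d = n + 1 := ⟨d - 1, by omega⟩
  have hn : 2 ≤ n := by omega
  let T : (Fin (n + 1) → ℝ) ≃ₗ[ℝ] ℝ × (Fin n → ℝ) :=
    (Fin.consLinearEquiv ℝ fun _ : Fin (n + 1) => ℝ).symm
  have hT : MeasurePreserving T volume volume := by
    have h := volume_preserving_piFinSuccAbove (fun _ : Fin (n + 1) => ℝ) 0
    have e : (T : (Fin (n + 1) → ℝ) → ℝ × (Fin n → ℝ)) =
        MeasurableEquiv.piFinSuccAbove (fun _ : Fin (n + 1) => ℝ) 0 := by
      funext x
      refine Prod.ext rfl (funext fun j => ?_)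
      simp [T, MeasurableEquiv.piFinSuccAbove, Fin.consLinearEquiv, Fin.tail]
    rw [e]; exact h
  have hTe : MeasurableEmbedding T :=
    T.toContinuousLinearEquiv.toHomeomorph.measurableEmbedding
  have hvol : ∀ S, volume (T ⁻¹' S) = volume S := fun S => hT.measure_preimage_emb hTe S
  obtain ⟨hm, hb, hpos⟩ := body_facts (tileF_nonempty n)
  have hinj := tileF_injOn hn
  -- tilings on the two sides correspond
  have hiff : ∀ A : Set (Fin (n + 1) → ℝ),
      ((∀ᵐ x, ∃ a ∈ A, x - a ∈ T ⁻¹' body (tileF n)) ∧ ∀ a ∈ A, ∀ b ∈ A, a ≠ b →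
        volume ({x | x - a ∈ T ⁻¹' body (tileF n)} ∩ {x | x - b ∈ T ⁻¹' body (tileF n)}) = 0) ↔
      Tiling (body (tileF n)) (T '' A) := by
    intro A
    have e : ∀ a, {x | x - a ∈ T ⁻¹' body (tileF n)} =
        T ⁻¹' {z | z - T a ∈ body (tileF n)} := fun a => by ext x; simp [map_sub]
    unfold Tiling
    refine and_congr ?_ ?_
    · rw [ae_iff, ae_iff, ← hvol {z | ¬∃ a ∈ T '' A, z - a ∈ body (tileF n)}]
      refine Iff.of_eq ?_
      congr 2
      ext x
      simp [map_sub]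
    · simp only [e, ← Set.preimage_inter, hvol, Set.forall_mem_image, ne_eq,
        T.injective.eq_iff]
  refine ⟨T ⁻¹' body (tileF n), hTe.measurable hm, ?_, (hvol _).symm ▸ hpos, ?_, ?_⟩
  · have := (T.toContinuousLinearEquiv.symm : (ℝ × (Fin n → ℝ)) →L[ℝ] (Fin (n + 1) → ℝ)).lipschitz.isBounded_image hb
    refine this.subset fun x hx => ⟨T x, hx, ?_⟩
    simp
  · obtain ⟨A, hA⟩ := exists_sys (n := n) hn
    refine ⟨T ⁻¹' (pt '' A), (hiff _).2 ?_⟩
    rw [Set.image_preimage_eq _ T.surjective]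
    exact tiling_of_sys hinj hA
  · rintro A hA ⟨v, hv, hper⟩
    obtain ⟨o, B, hB, hAB⟩ := sys_of_tiling hn hinj (tileF_nonempty n) ((hiff A).1 hA)
    obtain ⟨ψ, -, hz⟩ := hB 0
    obtain ⟨⟨b₀, p₀⟩, ⟨hb₀, -⟩, -⟩ := hz 0
    have hT' : ∀ i a, a + T (v i) ∈ T '' A ↔ a ∈ T '' A := by
      intro i a
      obtain ⟨x, rfl⟩ := T.surjective a
      rw [← map_add, T.injective.mem_set_image, T.injective.mem_set_image, hper]
    have key : ∀ i, ∃ m : ℝ × (Fin n → ℤ), m ∈ perGroup B ∧ pt m = T (v i) := by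
      intro i
      have hmem : ∀ b, o + pt b ∈ T '' A ↔ b ∈ B := fun b => by
        rw [hAB]
        exact ((add_right_injective o).comp pt_injective).mem_set_image
      have h0 : o + pt b₀ + T (v i) ∈ T '' A := (hT' i _).2 ((hmem _).2 hb₀)
      rw [hAB] at h0
      obtain ⟨b, -, hb⟩ := h0
      have hm : pt (b - b₀) = T (v i) := by
        rw [pt_sub, sub_eq_iff_eq_add]
        exact add_left_cancel (a := o) (by simp only at hb; rw [hb]; abel)
      refine ⟨b - b₀, fun c => ?_, hm⟩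
      rw [← hmem, ← hmem c]
      have : pt (c + (b - b₀)) = pt c + pt (b - b₀) := by
        have := pt_sub (c + (b - b₀)) (b - b₀)
        rw [add_sub_cancel_right] at this
        rw [this]; abel
      rw [this, hm, ← add_assoc]
      exact hT' i _
    choose m hm hmv using key
    have hli : LinearIndependent ℝ fun i => pt (m i) := by
      simp only [hmv]
      exact hv.map' T.toLinearMap T.ker
    obtain ⟨⟨P, hP, hPB⟩, N, hN, s, hs⟩ := exists_periods (by simp) m hm hli
    exact not_periodic_sys hn (a := (63, 21)) (b := (20, 10)) ⟨by norm_num, by norm_num⟩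
      ⟨by norm_num, by norm_num⟩ v1 v2 mix_injOn hasExtreme_R1 hasExtreme_R2
      not_planeTile_R1 not_planeTile_R2 (A := B) (by unfold tileF at hB; exact hB) hP hPB hN s hs

end Vale.Agent.P043.R3
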