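import Vale.Agent.P043.R3.Rigid.Line
import Vale.Agent.P043.R3.Rigid.Cubes

/-!
Helper for P043 R3: every tiling by the body comes from a solution of the row system.
-/

namespace Vale.Agent.P043.R3

open MeasureTheory Set

variable {n : ℕ}

lemma exists_of_ae {α : Type*} [MeasurableSpace α] {μ : Measure α} {P : α → Prop} {T : Set α}
    (h : ∀ᵐ y ∂μ, P y) (hT : 0 < μ T) : ∃ y ∈ T, P y := by
  by_contra hc
  push Not at hc
  exact hT.ne' (measure_mono_null (fun y hy => hc y hy) (ae_iff.1 h))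

lemma countable_of_tiling {F : Finset (ℝ × (Fin n → ℤ))} (hF : F.Nonempty)
    {A : Set (ℝ × (Fin n → ℝ))} (h : Tiling (body F) A) : A.Countable := by
  obtain ⟨hm, -, hpos⟩ := body_facts hF
  have : (volume : Measure (ℝ × (Fin n → ℝ))).IsAddHaarMeasure := by
    rw [Measure.volume_eq_prod]; infer_instance
  have hv : ∀ a : A, 0 < volume {z : ℝ × (Fin n → ℝ) | z - (a : ℝ × (Fin n → ℝ)) ∈ body F} :=
    fun a => by
    have e : {z : ℝ × (Fin n → ℝ) | z - (a : ℝ × (Fin n → ℝ)) ∈ body F} =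
        (fun z => z + -(a : ℝ × (Fin n → ℝ))) ⁻¹' body F := by
      ext z; simp [sub_eq_add_neg]
    rwa [e, measure_preimage_add_right]
  have hc := Measure.countable_meas_pos_of_disjoint_iUnion₀ (μ := (volume : Measure (ℝ × (Fin n → ℝ))))
    (As := fun a : A => {z | z - (a : ℝ × (Fin n → ℝ)) ∈ body F})
    (fun a => ((measurable_id.sub_const _) hm).nullMeasurableSet)
    (fun a b hab => h.2 a a.2 b b.2 fun e => hab (Subtype.ext e))
  have : {i : A | 0 < volume {z : ℝ × (Fin n → ℝ) | z - (i : ℝ × (Fin n → ℝ)) ∈ body F}} = univ :=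
    eq_univ_of_forall hv
  rw [this, countable_univ_iff] at hc
  exact countable_coe_iff.1 hc

theorem sys_of_tiling {n : ℕ} (hn : 2 ≤ n) {F : Finset (ℝ × (Fin n → ℤ))}
    (hinj : Set.InjOn Prod.snd (F : Set (ℝ × (Fin n → ℤ)))) (hF : F.Nonempty)
    {A : Set (ℝ × (Fin n → ℝ))} (h : Tiling (body F) A) :
    ∃ (o : ℝ × (Fin n → ℝ)) (B : Set (ℝ × (Fin n → ℤ))), Sys F B ∧ A = (fun b => o + pt b) '' B := by
  have := (countable_of_tiling hF h).to_subtype
  set S : A × F → ℝ × (Fin n → ℝ) := fun i => (i.1 : ℝ × (Fin n → ℝ)) + pt (i.2 : ℝ × (Fin n → ℤ))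
    with hS
  -- almost every point lies in exactly one prism
  have hdisj : ∀ i j, i ≠ j → ∀ᵐ z, ¬(z - S i ∈ prism n ∧ z - S j ∈ prism n) := by
    rintro ⟨⟨a, ha⟩, ⟨p, hp⟩⟩ ⟨⟨b, hb⟩, ⟨p', hp'⟩⟩ hne
    rw [ae_iff]
    rcases eq_or_ne a b with rfl | hab
    · refine measure_mono_null (fun z hz => ?_) measure_empty
      simp only [mem_ofPred_eq, not_not, hS] at hz
      have key : ∀ q : ℝ × (Fin n → ℤ), z - (a + pt q) ∈ prism n →
          ((z.2 - a.2) - fun k => (q.2 k : ℝ)) ∈ piece n := fun q hq => by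
        convert hq.1 using 1
        funext k
        simp [pt]; ring
      have e := hinj hp hp' ((existsUnique_cell (z.2 - a.2)).unique (key p hz.1) (key p' hz.2))
      exact (hne (by subst e; rfl)).elim
    · refine measure_mono_null (fun z hz => ?_) (h.2 a ha b hb hab)
      simp only [mem_ofPred_eq, not_not, hS] at hz
      exact ⟨⟨p, hp, by rw [sub_sub]; exact hz.1⟩, ⟨p', hp', by rw [sub_sub]; exact hz.2⟩⟩
  have hgood : ∀ᵐ z, ∃! i, z - S i ∈ prism n := by
    have hall : ∀ᵐ z, ∀ i j, i ≠ j → ¬(z - S i ∈ prism n ∧ z - S j ∈ prism n) := by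
      refine ae_all_iff.2 fun i => ae_all_iff.2 fun j => ?_
      rcases eq_or_ne i j with hij | hij
      · exact Filter.Eventually.of_forall fun z hne => absurd hij hne
      · exact (hdisj i j hij).mono fun z hz _ => hz
    filter_upwards [h.1, hall] with z hz hu
    obtain ⟨a, ha, p, hp, hzp⟩ := hz
    have hz0 : z - S (⟨a, ha⟩, ⟨p, hp⟩) ∈ prism n := by simp only [hS]; rwa [← sub_sub]
    exact ⟨_, hz0, fun j hj => by_contra fun hne => hu j _ hne ⟨hj, hz0⟩⟩
  -- on almost every vertical line the unit intervals form one coset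
  set c : A × F → (Fin n → ℝ) → ℝ := fun i y => (S i).1 + ∑ k, (y k - (S i).2 k) ^ 2 with hc
  have hline : ∀ᵐ y : Fin n → ℝ, ∃ ψ : ℝ,
      (∀ i : {i // y - (S i).2 ∈ piece n}, ∃ z : ℤ, c i y = ψ + z) ∧
      ∀ z : ℤ, ∃! i : {i // y - (S i).2 ∈ piece n}, c i y = ψ + z := by
    have h1 : ∀ᵐ w : (Fin n → ℝ) × ℝ, ∃! i, w.swap - S i ∈ prism n :=
      (Measure.measurePreserving_swap (μ := (volume : Measure (Fin n → ℝ)))
        (ν := (volume : Measure ℝ))).quasiMeasurePreserving.ae hgood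
    filter_upwards [Measure.ae_ae_of_ae_prod h1] with y hy
    refine exists_coset (fun i : {i // y - (S i).2 ∈ piece n} => c i y) ?_
    filter_upwards [hy] with x hx
    have key : ∀ i, (x, y) - S i ∈ prism n ↔
        y - (S i).2 ∈ piece n ∧ x ∈ Ico (c i y) (c i y + 1) := fun i => by
      show ((x, y) - S i).2 ∈ piece n ∧
        ((x, y) - S i).1 - ∑ k, ((x, y) - S i).2 k ^ 2 ∈ Ico (0 : ℝ) 1 ↔ _
      simp only [Prod.fst_sub, Prod.snd_sub, Pi.sub_apply, hc, mem_Ico]
      constructor <;> rintro ⟨h1, h2, h3⟩ <;> exact ⟨h1, by linarith, by linarith⟩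
    obtain ⟨i, hi, hiu⟩ := hx
    exact ⟨⟨i, ((key i).1 hi).1⟩, ((key i).1 hi).2,
      fun j hj => Subtype.ext (hiu _ ((key j).2 ⟨j.2, hj⟩))⟩
  have hnull : ∀ᵐ y : Fin n → ℝ, ∀ i j, ∀ z : ℤ, (S i).2 ≠ (S j).2 → c i y - c j y ≠ z := by
    refine ae_all_iff.2 fun i => ae_all_iff.2 fun j => ae_all_iff.2 fun z => ?_
    rcases eq_or_ne (S i).2 (S j).2 with hij | hij
    · exact Filter.Eventually.of_forall fun y hne => absurd hij hne
    · have hw : (fun k => (-2 : ℝ) * ((S i).2 k - (S j).2 k)) ≠ 0 := fun e => hij (funext fun k => by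
        have := congrFun e k
        simp only [Pi.zero_apply] at this
        linarith)
      have h0 := volume_level hw
        ((z : ℝ) - (S i).1 + (S j).1 - ∑ k, ((S i).2 k ^ 2 - (S j).2 k ^ 2))
      filter_upwards [compl_mem_ae_iff.2 h0] with y hy _ he
      refine hy ?_
      simp only [mem_ofPred_eq, hc] at he ⊢
      have e2 : ∑ k, (y k - (S i).2 k) ^ 2 - ∑ k, (y k - (S j).2 k) ^ 2 =
          ∑ k, (-2 : ℝ) * ((S i).2 k - (S j).2 k) * y k + ∑ k, ((S i).2 k ^ 2 - (S j).2 k ^ 2) := by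
        rw [← Finset.sum_sub_distrib, ← Finset.sum_add_distrib]
        exact Finset.sum_congr rfl fun k _ => by ring
      linarith
  -- the rows form one coset of the lattice
  have hcell : ∀ᵐ y : Fin n → ℝ,
      ∃! r, r ∈ range (fun i => (S i).2) ∧ y - r ∈ piece n := by
    filter_upwards [hline, hnull] with y hy hy'
    obtain ⟨ψ, h1, h2⟩ := hy
    obtain ⟨i, -, -⟩ := h2 0
    refine ⟨(S i).2, ⟨mem_range_self _, i.2⟩, ?_⟩
    rintro r ⟨⟨j, rfl⟩, hj⟩
    by_contra hne
    obtain ⟨z, hz⟩ := h1 i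
    obtain ⟨z', hz'⟩ := h1 ⟨j, hj⟩
    refine hy' j i (z' - z) hne ?_
    simp only at hz'
    push_cast
    linarith
  obtain ⟨o, ho⟩ := lattice_of_cells hcell hn
  have hrow : ∀ i, ∃ r : Fin n → ℤ, (S i).2 = o + fun k => (r k : ℝ) := fun i => by
    obtain ⟨r, hr⟩ := ho ▸ mem_range_self (f := fun i => (S i).2) i
    exact ⟨r, hr.symm⟩
  refine ⟨(0, o), {b | ((0, o) : ℝ × (Fin n → ℝ)) + pt b ∈ A}, fun r => ?_, ?_⟩
  · set p : Fin n → ℝ := o + fun k => (r k : ℝ) with hp
    have hT : 0 < volume (univ.pi fun k => Ico (p k + 1 / 10) (p k + 1 / 5)) :=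
      pi_pos' fun k => Ico_pos (by linarith)
    obtain ⟨y, hyT, ⟨ψ, h1, h2⟩, hyu⟩ := exists_of_ae (hline.and hcell) hT
    have hyp : y - p ∈ piece n := by
      refine Or.inl ⟨fun k => ?_, fun hm => ?_⟩
      · have := hyT k (mem_univ k)
        simp only [mem_Ico] at this
        simp only [Pi.sub_apply, mem_Ico]
        constructor <;> linarith
      · obtain ⟨d, hd⟩ := mem_iUnion.1 hm
        have := hd.1.2
        have := (hyT d (mem_univ d)).1
        simp only [Pi.sub_apply] at *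
        linarith [eta_le n]
    set K := ∑ k, (y k - p k) ^ 2 with hK
    have hmemS : p ∈ range fun i => (S i).2 := ho ▸ ⟨r, rfl⟩
    have hI : ∀ i, y - (S i).2 ∈ piece n → (S i).2 = p := fun i hi =>
      hyu.unique ⟨mem_range_self i, hi⟩ ⟨hmemS, hyp⟩
    -- a position of the system in row `r` is a prism position above `p`
    have toS : ∀ b ∈ {b | ((0, o) : ℝ × (Fin n → ℝ)) + pt b ∈ A}, ∀ f, ∀ hf : f ∈ F, b.2 + f.2 = r →
        ∃ i : A × F, (i.1 : ℝ × (Fin n → ℝ)) = (0, o) + pt b ∧ i.2 = ⟨f, hf⟩ ∧ (S i).2 = p ∧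
          c i y = b.1 + f.1 + K := by
      intro b hb f hf e
      refine ⟨(⟨_, hb⟩, ⟨f, hf⟩), rfl, rfl, ?_, ?_⟩
      · funext k
        simp [hS, hp, pt, ← e]; ring
      · have e2 : (S (⟨(0, o) + pt b, hb⟩, ⟨f, hf⟩)).2 = p := by
          funext k
          simp [hS, hp, pt, ← e]; ring
        simp only [hc, e2, hK]
        simp [hS, pt]
    refine ⟨ψ - K, fun b hb f hf e => ?_, fun z => ?_⟩
    · obtain ⟨i, -, -, hi, hci⟩ := toS b hb f hf e
      obtain ⟨z, hz⟩ := h1 ⟨i, hi ▸ hyp⟩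
      exact ⟨z, by rw [hci] at hz; linarith⟩
    · obtain ⟨⟨⟨⟨a, ha⟩, ⟨f, hf⟩⟩, hi⟩, hci, hiu⟩ := h2 z
      have hap := hI _ hi
      set b : ℝ × (Fin n → ℤ) := (a.1, r - f.2) with hb
      have hab : ((0, o) : ℝ × (Fin n → ℝ)) + pt b = a := by
        refine Prod.ext (by simp [pt, hb]) (funext fun k => ?_)
        have := congrFun hap k
        simp [hS, hp, pt] at this
        simp [pt, hb]; linarith
      refine ⟨(b, f), ⟨by rw [mem_ofPred_eq, hab]; exact ha, hf, sub_add_cancel _ _, ?_⟩, ?_⟩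
      · simp only [hc, hap] at hci
        simp [hS, pt] at hci
        simp only [hK, hb]
        linarith
      · rintro ⟨b', f'⟩ ⟨hb', hf', e, e1⟩
        obtain ⟨i, hia, hif, hi2, hci'⟩ := toS b' hb' f' hf' e
        have hi' := congrArg Subtype.val (hiu ⟨i, hi2 ▸ hyp⟩ (show c i y = ψ + z by
          rw [hci']
          simp only at e1
          linarith))
        simp only at hi'
        obtain rfl : f' = f := by
          have := congrArg (fun q => (q.2 : ℝ × (Fin n → ℤ))) hi'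
          simpa [hif] using this
        refine Prod.ext (Prod.ext ?_ ?_) rfl
        · have := congrArg (fun q => (q.1 : ℝ × (Fin n → ℝ)).1) hi'
          simpa [hia, hb, pt] using this
        · simp only [hb]
          exact eq_sub_of_add_eq e
  · ext a
    constructor
    · intro ha
      obtain ⟨f, hf⟩ := hF
      obtain ⟨r, hr⟩ := hrow (⟨a, ha⟩, ⟨f, hf⟩)
      have e : ((0, o) : ℝ × (Fin n → ℝ)) + pt (a.1, r - f.2) = a := by
        refine Prod.ext (by simp [pt]) (funext fun k => ?_)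
        have := congrFun hr k
        simp [hS, pt] at this
        simp [pt]; linarith
      exact ⟨(a.1, r - f.2), by rw [mem_ofPred_eq, e]; exact ha, e⟩
    · rintro ⟨b, hb, rfl⟩
      exact hb

end Vale.Agent.P043.R3
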